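import Mathlib

-- ▼ part R268/CommA
section

/-! Row 268, S0410: algebraic identities for the polynomial `F` and its inverse coordinates. -/

set_option autoImplicit false

namespace Crest.Agent.R268.Comm

section fns
variable {R : Type*} [CommRing R] (x y z u : R)

def q : R := y ^ 2 - 1 + x * z
def p : R := y * q x y z + x * u
def r : R := 2 * y * q x y z * u + x * u ^ 2 - q x y z ^ 2 * z
def e : R := y * u - q x y z * z
def al : R := 2 * (r x y z u + 1) * (r x y z u + 2)
def ga : R := (r x y z u + 2) * (3 * q x y z + 3 * r x y z u ^ 2 + 6 * r x y z u + 2)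
/-- the polynomial `F` -/
def Ff : R := x + al x y z u * p x y z u - ga x y z u * q x y z
def q' : R := q x y z + r x y z u * (r x y z u + 2)
def p' : R := p x y z u + r x y z u * (r x y z u + 1) * (r x y z u + 2)
def s : R := y + al x y z u * e x y z u + ga x y z u * u

theorem id0 : x * r x y z u = p x y z u ^ 2 - q x y z ^ 3 - q x y z ^ 2 := by
  simp only [p, r, q]; ring

theorem id1 : Ff x y z u * r x y z u = p' x y z u ^ 2 - q' x y z u ^ 3 - q' x y z u ^ 2 := by
  have h := id0 x y z u
  simp only [Ff, p', q', al, ga]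
  linear_combination h

theorem id_x : x = Ff x y z u - al x y z u * p x y z u + ga x y z u * q x y z := by
  simp only [Ff]; ring

theorem id2 : Ff x y z u * y = x * s x y z u + al x y z u * q x y z * (q x y z + 1)
    - ga x y z u * p x y z u := by
  generalize ha : al x y z u = a
  generalize hg : ga x y z u = g
  simp only [Ff, s, ha, hg, p, e, q]; ring

theorem id3 : Ff x y z u * u = -q x y z * s x y z u + p x y z u + al x y z u * r x y z u := by
  generalize ha : al x y z u = a
  generalize hg : ga x y z u = g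
  simp only [Ff, s, ha, hg, p, e, q, r]; ring

theorem id4 : Ff x y z u ^ 2 * z = -x * s x y z u ^ 2
    - 2 * (al x y z u * q x y z * (q x y z + 1) - ga x y z u * p x y z u) * s x y z u
    + (q x y z + 1) * (x + 2 * al x y z u * p x y z u - 2 * ga x y z u * q x y z)
    + (al x y z u ^ 2 * (q x y z + 1) - ga x y z u ^ 2) * r x y z u := by
  generalize ha : al x y z u = a
  generalize hg : ga x y z u = g
  simp only [Ff, s, ha, hg, p, e, q, r]; ring

end fns

section inv
variable {R : Type*} [CommRing R] (T t Q P S : R)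

def ir : R := (P ^ 2 - Q ^ 3 - Q ^ 2) * t
def iq : R := Q - ir t Q P * (ir t Q P + 2)
def ip : R := P - ir t Q P * (ir t Q P + 1) * (ir t Q P + 2)
def ial : R := 2 * (ir t Q P + 1) * (ir t Q P + 2)
def iga : R := (ir t Q P + 2) * (3 * iq t Q P + 3 * ir t Q P ^ 2 + 6 * ir t Q P + 2)
def ix : R := T - ial t Q P * ip t Q P + iga t Q P * iq t Q P
def iy : R := (ix T t Q P * S + ial t Q P * iq t Q P * (iq t Q P + 1)
    - iga t Q P * ip t Q P) * t
def iu : R := (-iq t Q P * S + ip t Q P + ial t Q P * ir t Q P) * t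
def iz : R := (-ix T t Q P * S ^ 2
    - 2 * (ial t Q P * iq t Q P * (iq t Q P + 1) - iga t Q P * ip t Q P) * S
    + (iq t Q P + 1) * (ix T t Q P + 2 * ial t Q P * ip t Q P - 2 * iga t Q P * iq t Q P)
    + (ial t Q P ^ 2 * (iq t Q P + 1) - iga t Q P ^ 2) * ir t Q P) * t ^ 2

variable {T t} (hT : T * t = 1)
include hT

theorem inv0 : ix T t Q P * ir t Q P = ip t Q P ^ 2 - iq t Q P ^ 3 - iq t Q P ^ 2 := by
  have h : T * ir t Q P = P ^ 2 - Q ^ 3 - Q ^ 2 := by
    simp only [ir]; linear_combination (P ^ 2 - Q ^ 3 - Q ^ 2) * hT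
  have h2 : Q = iq t Q P + ir t Q P * (ir t Q P + 2) := by simp only [iq]; ring
  have h3 : P = ip t Q P + ir t Q P * (ir t Q P + 1) * (ir t Q P + 2) := by simp only [ip]; ring
  simp only [ix, ial, iga]
  generalize hr : ir t Q P = r at *
  generalize hq : iq t Q P = q at *
  generalize hp : ip t Q P = p at *
  subst h2; subst h3
  linear_combination h

theorem inv_q : q (ix T t Q P) (iy T t Q P S) (iz T t Q P S) = iq t Q P := by
  have h0 := inv0 Q P hT
  have hx : ix T t Q P = T - ial t Q P * ip t Q P + iga t Q P * iq t Q P := rfl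
  simp only [q, iy, iz]
  generalize ix T t Q P = x at *
  generalize ir t Q P = r at *
  generalize iq t Q P = q at *
  generalize ip t Q P = p at *
  generalize ial t Q P = a at *
  generalize iga t Q P = g at *
  have hT' : T = x + a * p - g * q := by linear_combination -hx
  have key : (x * S + a * q * (q + 1) - g * p) ^ 2 - T ^ 2 + x * (-x * S ^ 2
    - 2 * (a * q * (q + 1) - g * p) * S
    + (q + 1) * (x + 2 * a * p - 2 * g * q)
    + (a ^ 2 * (q + 1) - g ^ 2) * r) = q * T ^ 2 := by
    subst hT'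
    linear_combination (a ^ 2 * (q + 1) - g ^ 2) * h0
  linear_combination t ^ 2 * key + (1 + q) * (T * t + 1) * hT

theorem inv_p : p (ix T t Q P) (iy T t Q P S) (iz T t Q P S) (iu t Q P S) = ip t Q P := by
  have h0 := inv0 Q P hT
  have hx : ix T t Q P = T - ial t Q P * ip t Q P + iga t Q P * iq t Q P := rfl
  rw [p, inv_q Q P S hT]
  simp only [iy, iu]
  generalize ix T t Q P = x at *
  generalize ir t Q P = r at *
  generalize iq t Q P = q at *
  generalize ip t Q P = p at *
  generalize ial t Q P = a at *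
  generalize iga t Q P = g at *
  have hT' : T = x + a * p - g * q := by linear_combination -hx
  have key : (x * S + a * q * (q + 1) - g * p) * q + x * (-q * S + p + a * r) = p * T := by
    subst hT'
    linear_combination a * h0
  linear_combination t * key + p * hT

theorem inv_r : r (ix T t Q P) (iy T t Q P S) (iz T t Q P S) (iu t Q P S) = ir t Q P := by
  have h0 := inv0 Q P hT
  have hx : ix T t Q P = T - ial t Q P * ip t Q P + iga t Q P * iq t Q P := rfl
  rw [r, inv_q Q P S hT]
  simp only [iy, iu, iz]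
  generalize ix T t Q P = x at *
  generalize ir t Q P = r at *
  generalize iq t Q P = q at *
  generalize ip t Q P = p at *
  generalize ial t Q P = a at *
  generalize iga t Q P = g at *
  have hT' : T = x + a * p - g * q := by linear_combination -hx
  have key : 2 * (x * S + a * q * (q + 1) - g * p) * q * (-q * S + p + a * r)
      + x * (-q * S + p + a * r) ^ 2 - q ^ 2 * (-x * S ^ 2
    - 2 * (a * q * (q + 1) - g * p) * S
    + (q + 1) * (x + 2 * a * p - 2 * g * q)
    + (a ^ 2 * (q + 1) - g ^ 2) * r) = r * T ^ 2 := by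
    subst hT'
    linear_combination (a ^ 2 * r + 2 * g * q - x) * h0
  linear_combination t ^ 2 * key + r * (T * t + 1) * hT

theorem inv_al : al (ix T t Q P) (iy T t Q P S) (iz T t Q P S) (iu t Q P S) = ial t Q P := by
  rw [al, ial, inv_r Q P S hT]

theorem inv_ga : ga (ix T t Q P) (iy T t Q P S) (iz T t Q P S) (iu t Q P S) = iga t Q P := by
  rw [ga, iga, inv_r Q P S hT, inv_q Q P S hT]

theorem inv_F : Ff (ix T t Q P) (iy T t Q P S) (iz T t Q P S) (iu t Q P S) = T := by
  rw [Ff, inv_al Q P S hT, inv_ga Q P S hT, inv_q Q P S hT, inv_p Q P S hT, ix]; ring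

theorem inv_q' : q' (ix T t Q P) (iy T t Q P S) (iz T t Q P S) (iu t Q P S) = Q := by
  rw [q', inv_r Q P S hT, inv_q Q P S hT, iq]; ring

theorem inv_p' : p' (ix T t Q P) (iy T t Q P S) (iz T t Q P S) (iu t Q P S) = P := by
  rw [p', inv_r Q P S hT, inv_p Q P S hT, ip]; ring

theorem inv_e : T * e (ix T t Q P) (iy T t Q P S) (iz T t Q P S) (iu t Q P S)
    = ip t Q P * S - iq t Q P * (iq t Q P + 1) - iga t Q P * ir t Q P := by
  have h0 := inv0 Q P hT
  have hx : ix T t Q P = T - ial t Q P * ip t Q P + iga t Q P * iq t Q P := rfl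
  rw [e, inv_q Q P S hT]
  simp only [iy, iu, iz]
  generalize ix T t Q P = x at *
  generalize ir t Q P = r at *
  generalize iq t Q P = q at *
  generalize ip t Q P = p at *
  generalize ial t Q P = a at *
  generalize iga t Q P = g at *
  have hT' : T = x + a * p - g * q := by linear_combination -hx
  have key : (x * S + a * q * (q + 1) - g * p) * (-q * S + p + a * r) - q * (-x * S ^ 2
    - 2 * (a * q * (q + 1) - g * p) * S
    + (q + 1) * (x + 2 * a * p - 2 * g * q)
    + (a ^ 2 * (q + 1) - g ^ 2) * r) = T * (p * S - q * (q + 1) - g * r) := by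
    subst hT'
    linear_combination (a * S + g) * h0
  linear_combination T * t ^ 2 * key + (p * S - q * (q + 1) - g * r) * (T * t + 1) * hT

theorem inv_s : s (ix T t Q P) (iy T t Q P S) (iz T t Q P S) (iu t Q P S) = S := by
  have he := inv_e Q P S hT
  have hx : ix T t Q P = T - ial t Q P * ip t Q P + iga t Q P * iq t Q P := rfl
  rw [s, inv_al Q P S hT, inv_ga Q P S hT]
  have key : T * (iy T t Q P S + ial t Q P * e (ix T t Q P) (iy T t Q P S) (iz T t Q P S) (iu t Q P S)
      + iga t Q P * iu t Q P S) = T * S := by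
    simp only [iy, iu] at *
    generalize ix T t Q P = x at *
    generalize ir t Q P = r at *
    generalize iq t Q P = q at *
    generalize ip t Q P = p at *
    generalize ial t Q P = a at *
    generalize iga t Q P = g at *
    linear_combination a * he + ((x * S + a * q * (q + 1) - g * p)
      + g * (-q * S + p + a * r)) * hT + S * hx
  linear_combination t * key - (iy T t Q P S + ial t Q P * e (ix T t Q P) (iy T t Q P S) (iz T t Q P S) (iu t Q P S)
      + iga t Q P * iu t Q P S) * hT + S * hT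

end inv

section map
variable {R R' : Type*} [CommRing R] [CommRing R'] (φ : R →+* R') (x y z u : R)

theorem map_q : φ (q x y z) = q (φ x) (φ y) (φ z) := by simp [q]
theorem map_p : φ (p x y z u) = p (φ x) (φ y) (φ z) (φ u) := by simp [p, map_q]
theorem map_r : φ (r x y z u) = r (φ x) (φ y) (φ z) (φ u) := by simp [r, map_q, map_ofNat]
theorem map_e : φ (e x y z u) = e (φ x) (φ y) (φ z) (φ u) := by simp [e, map_q]
theorem map_al : φ (al x y z u) = al (φ x) (φ y) (φ z) (φ u) := by simp [al, map_r, map_ofNat]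
theorem map_ga : φ (ga x y z u) = ga (φ x) (φ y) (φ z) (φ u) := by simp [ga, map_r, map_q, map_ofNat]
theorem map_F : φ (Ff x y z u) = Ff (φ x) (φ y) (φ z) (φ u) := by
  simp [Ff, map_al, map_ga, map_p, map_q]
theorem map_q' : φ (q' x y z u) = q' (φ x) (φ y) (φ z) (φ u) := by simp [q', map_r, map_q, map_ofNat]
theorem map_p' : φ (p' x y z u) = p' (φ x) (φ y) (φ z) (φ u) := by simp [p', map_r, map_p, map_ofNat]
theorem map_s : φ (s x y z u) = s (φ x) (φ y) (φ z) (φ u) := by
  simp [s, map_al, map_ga, map_e]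

end map

end Crest.Agent.R268.Comm
end

-- ▼ part R268/CommB
section

/-! Row 268, S0410: general facts on partial derivatives. -/

set_option autoImplicit false
set_option linter.unusedSimpArgs false

namespace Crest.Agent.R268.Comm

open MvPolynomial

section general
variable {σ K : Type*} [Field K] [CharZero K]

omit [CharZero K] in
theorem pderiv_comm (a b : σ) (f : MvPolynomial σ K) :
    pderiv a (pderiv b f) = pderiv b (pderiv a f) := by
  classical
  ext m
  by_cases h : a = b
  · subst h; rfl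
  · have h' : b ≠ a := fun h'' => h h''.symm
    simp only [coeff_pderiv, Finsupp.add_apply, Finsupp.single_apply, h, h', if_false, add_zero]
    have : m + Finsupp.single a 1 + Finsupp.single b 1 = m + Finsupp.single b 1 + Finsupp.single a 1 := by
      abel
    rw [this]; ring

omit [CharZero K] in
theorem coeff_iterate_pderiv (a : σ) (f : MvPolynomial σ K) (k : ℕ) :
    ∀ m : σ →₀ ℕ, ∃ c : K, coeff m ((pderiv a)^[k] f) = coeff (m + Finsupp.single a k) f * c := by
  induction k with
  | zero => intro m; exact ⟨1, by simp⟩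
  | succ k ih =>
    intro m
    obtain ⟨c, hc⟩ := ih (m + Finsupp.single a 1)
    refine ⟨c * (m a + 1), ?_⟩
    rw [Function.iterate_succ', Function.comp_apply, coeff_pderiv, hc]
    have : m + Finsupp.single a 1 + Finsupp.single a k = m + Finsupp.single a (k + 1) := by
      rw [add_assoc, ← Finsupp.single_add, add_comm 1 k]
    rw [this]; ring

omit [CharZero K] in
theorem pderiv_nilp (a : σ) (f : MvPolynomial σ K) : ∃ k : ℕ, (pderiv a)^[k] f = 0 := by
  classical
  refine ⟨degreeOf a f + 1, ?_⟩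
  ext m
  obtain ⟨c, hc⟩ := coeff_iterate_pderiv a f (degreeOf a f + 1) m
  rw [hc, coeff_zero]
  by_cases h : coeff (m + Finsupp.single a (degreeOf a f + 1)) f = 0
  · rw [h, zero_mul]
  · exfalso
    have := monomial_le_degreeOf a (mem_support_iff.2 h)
    simp at this
    omega

theorem eq_C_of_pderiv_eq_zero {R : Type*} [CommRing R] [IsDomain R] [CharZero R]
    (f : MvPolynomial σ R) (h : ∀ a, pderiv a f = 0) : ∃ c, f = C c := by
  classical
  refine ⟨coeff 0 f, ?_⟩
  ext m
  rw [coeff_C]
  split_ifs with hm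
  · rw [← hm]
  · have : ∃ i, m i ≠ 0 := by
      by_contra hcon
      push Not at hcon
      exact hm (Finsupp.ext fun i => by simp [hcon i])
    obtain ⟨i, hi⟩ := this
    have h1 : coeff (m - Finsupp.single i 1) (pderiv i f) = 0 := by rw [h i, coeff_zero]
    rw [coeff_pderiv] at h1
    have h2 : m - Finsupp.single i 1 + Finsupp.single i 1 = m := by
      apply tsub_add_cancel_of_le
      rw [Finsupp.single_le_iff]
      omega
    rw [h2] at h1
    rcases mul_eq_zero.1 h1 with h3 | h3
    · exact h3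
    · exfalso
      exact Nat.cast_add_one_ne_zero _ h3

end general

section der
variable {B : Type*} [CommRing B] {k : Type*} [CommRing k] [Algebra k B]
  (D : Derivation k B B) {T t Q P S : B}

theorem der_ir (ht : D t = 0) (hQ : D Q = 0) (hP : D P = 0) : D (ir t Q P) = 0 := by
  simp [ir, Derivation.leibniz, Derivation.leibniz_pow, ht, hQ, hP]

theorem der_iq (ht : D t = 0) (hQ : D Q = 0) (hP : D P = 0) : D (iq t Q P) = 0 := by
  have h2 : D (2 : B) = 0 := by exact_mod_cast D.map_natCast 2
  simp [iq, Derivation.leibniz, Derivation.leibniz_pow, hQ, der_ir D ht hQ hP, h2]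

theorem der_ip (ht : D t = 0) (hQ : D Q = 0) (hP : D P = 0) : D (ip t Q P) = 0 := by
  have h2 : D (2 : B) = 0 := by exact_mod_cast D.map_natCast 2
  simp [ip, Derivation.leibniz, Derivation.leibniz_pow, hP, der_ir D ht hQ hP, h2]

theorem der_ial (ht : D t = 0) (hQ : D Q = 0) (hP : D P = 0) : D (ial t Q P) = 0 := by
  have h2 : D (2 : B) = 0 := by exact_mod_cast D.map_natCast 2
  simp [ial, Derivation.leibniz, Derivation.leibniz_pow, der_ir D ht hQ hP, h2]

theorem der_iga (ht : D t = 0) (hQ : D Q = 0) (hP : D P = 0) : D (iga t Q P) = 0 := by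
  have h2 : D (2 : B) = 0 := by exact_mod_cast D.map_natCast 2
  have h3 : D (3 : B) = 0 := by exact_mod_cast D.map_natCast 3
  have h6 : D (6 : B) = 0 := by exact_mod_cast D.map_natCast 6
  simp [iga, Derivation.leibniz, Derivation.leibniz_pow, der_ir D ht hQ hP,
    der_iq D ht hQ hP, h2, h3, h6]

theorem der_ix (hT : D T = 0) (ht : D t = 0) (hQ : D Q = 0) (hP : D P = 0) :
    D (ix T t Q P) = 0 := by
  simp [ix, Derivation.leibniz, Derivation.leibniz_pow, der_ial D ht hQ hP,
    der_iga D ht hQ hP, der_ip D ht hQ hP, der_iq D ht hQ hP, hT]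

theorem der_iy (hT : D T = 0) (ht : D t = 0) (hQ : D Q = 0) (hP : D P = 0) (hS : D S = 0) :
    D (iy T t Q P S) = 0 := by
  simp [iy, Derivation.leibniz, Derivation.leibniz_pow, der_ial D ht hQ hP,
    der_iga D ht hQ hP, der_ip D ht hQ hP, der_iq D ht hQ hP, der_ix D hT ht hQ hP, hS, ht]

theorem der_iu (ht : D t = 0) (hQ : D Q = 0) (hP : D P = 0) (hS : D S = 0) :
    D (iu t Q P S) = 0 := by
  simp [iu, Derivation.leibniz, Derivation.leibniz_pow, der_ial D ht hQ hP,
    der_iga D ht hQ hP, der_ip D ht hQ hP, der_iq D ht hQ hP, der_ir D ht hQ hP, hS, ht]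

theorem der_iz (hT : D T = 0) (ht : D t = 0) (hQ : D Q = 0) (hP : D P = 0) (hS : D S = 0) :
    D (iz T t Q P S) = 0 := by
  have h2 : D (2 : B) = 0 := by exact_mod_cast D.map_natCast 2
  simp [iz, Derivation.leibniz, Derivation.leibniz_pow, der_ial D ht hQ hP,
    der_iga D ht hQ hP, der_ip D ht hQ hP, der_iq D ht hQ hP, der_ir D ht hQ hP,
    der_ix D hT ht hQ hP, hS, ht, h2]

end der

end Crest.Agent.R268.Comm
end

-- ▼ part R268/CommC

/-! Row 268, S0410: coordinates of the localized ring. -/

set_option autoImplicit false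

namespace Crest.Agent.R268.Comm

open MvPolynomial

variable (m : ℕ)

/-- the ring `ℂ[x₀,…,x₃₊ₘ]` -/
abbrev A := MvPolynomial (Fin (4 + m)) ℂ
/-- `ℂ[T]` -/
abbrev Po := Polynomial ℂ
/-- `ℂ(T)` -/
abbrev K := FractionRing (Polynomial ℂ)
/-- polynomials over `ℂ(T)` -/
abbrev L := MvPolynomial (Fin 3 ⊕ Fin m) K
/-- polynomials over `ℂ[T]` -/
abbrev P := MvPolynomial (Fin 3 ⊕ Fin m) Po

instance : CharZero K := charZero_of_injective_algebraMap (IsFractionRing.injective (Polynomial ℂ) K)

noncomputable def xs (j : Fin 4) : A m := X (Fin.castAdd m j)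
noncomputable def vs (i : Fin m) : A m := X (Fin.natAdd 4 i)

noncomputable def Fm : A m := Ff (xs m 0) (xs m 1) (xs m 2) (xs m 3)

noncomputable def Tn : L m := C (algebraMap (Polynomial ℂ) K Polynomial.X)
noncomputable def tn : L m := C (algebraMap (Polynomial ℂ) K Polynomial.X)⁻¹
noncomputable def Ln (j : Fin 3) : L m := X (Sum.inl j)

theorem hTt : Tn m * tn m = 1 := by
  have h : algebraMap (Polynomial ℂ) K Polynomial.X ≠ 0 := by
    intro h
    exact Polynomial.X_ne_zero (IsFractionRing.injective (Polynomial ℂ) K (by rw [h, map_zero]))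
  rw [Tn, tn, ← C_mul, mul_inv_cancel₀ h, C_1]

/-- inclusion of coefficients -/
noncomputable def incl : P m →+* L m := MvPolynomial.map (algebraMap (Polynomial ℂ) K)

theorem incl_inj : Function.Injective (incl m) :=
  MvPolynomial.map_injective _ (IsFractionRing.injective (Polynomial ℂ) K)

/-- `Θ : ℂ[T][Q,P,S,v] → A` -/
noncomputable def Th : P m →+* A m :=
  eval₂Hom (Polynomial.aeval (R := ℂ) (Fm m) : Polynomial ℂ →+* A m)
    (Sum.elim ![q' (xs m 0) (xs m 1) (xs m 2) (xs m 3), p' (xs m 0) (xs m 1) (xs m 2) (xs m 3),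
      s (xs m 0) (xs m 1) (xs m 2) (xs m 3)] (vs m))

/-- images of the four variables -/
noncomputable def img (j : Fin 4) : L m :=
  ![ix (Tn m) (tn m) (Ln m 0) (Ln m 1), iy (Tn m) (tn m) (Ln m 0) (Ln m 1) (Ln m 2),
    iz (Tn m) (tn m) (Ln m 0) (Ln m 1) (Ln m 2), iu (tn m) (Ln m 0) (Ln m 1) (Ln m 2)] j

/-- `Ψ : A → ℂ(T)[Q,P,S,v]` -/
noncomputable def Ps : A m →ₐ[ℂ] L m :=
  aeval (Fin.addCases (img m) (fun i => X (Sum.inr i)))

theorem Ps_xs (j : Fin 4) : Ps m (xs m j) = img m j := by
  rw [Ps, xs, aeval_X, Fin.addCases_left]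

theorem Ps_vs (i : Fin m) : Ps m (vs m i) = X (Sum.inr i) := by
  rw [Ps, vs, aeval_X, Fin.addCases_right]

theorem Ps_F : Ps m (Fm m) = Tn m := by
  have := map_F (Ps m : A m →+* L m) (xs m 0) (xs m 1) (xs m 2) (xs m 3)
  simp only [RingHom.coe_coe, Ps_xs] at this
  rw [Fm, this]
  exact inv_F _ _ _ (hTt m)

theorem Ps_q' : Ps m (q' (xs m 0) (xs m 1) (xs m 2) (xs m 3)) = X (Sum.inl 0) := by
  have := map_q' (Ps m : A m →+* L m) (xs m 0) (xs m 1) (xs m 2) (xs m 3)
  simp only [RingHom.coe_coe, Ps_xs] at this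
  rw [this]
  exact inv_q' _ _ _ (hTt m)

theorem Ps_p' : Ps m (p' (xs m 0) (xs m 1) (xs m 2) (xs m 3)) = X (Sum.inl 1) := by
  have := map_p' (Ps m : A m →+* L m) (xs m 0) (xs m 1) (xs m 2) (xs m 3)
  simp only [RingHom.coe_coe, Ps_xs] at this
  rw [this]
  exact inv_p' _ _ _ (hTt m)

theorem Ps_s : Ps m (s (xs m 0) (xs m 1) (xs m 2) (xs m 3)) = X (Sum.inl 2) := by
  have := map_s (Ps m : A m →+* L m) (xs m 0) (xs m 1) (xs m 2) (xs m 3)
  simp only [RingHom.coe_coe, Ps_xs] at this
  rw [this]
  exact inv_s _ _ _ (hTt m)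

theorem Th_C (c : Polynomial ℂ) : Th m (C c) = Polynomial.aeval (Fm m) c := by
  simp [Th]

theorem Ps_aeval (c : Polynomial ℂ) :
    Ps m (Polynomial.aeval (Fm m) c) = C (algebraMap (Polynomial ℂ) K c) := by
  have h1 : Ps m (Polynomial.aeval (Fm m) c) = Polynomial.aeval (Tn m) c := by
    rw [← Ps_F, Polynomial.aeval_algHom_apply]
  rw [h1]
  clear h1
  induction c using Polynomial.induction_on' with
  | add a b ha hb => rw [map_add, map_add, C_add, ha, hb]
  | monomial n a => 
    rw [Polynomial.aeval_monomial, Tn, ← Polynomial.C_mul_X_pow_eq_monomial, map_mul, map_pow,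
      C_mul, C_pow]
    congr 1

theorem Ps_Th (h : P m) : Ps m (Th m h) = incl m h := by
  have : (Ps m : A m →+* L m).comp (Th m) = incl m := by
    apply MvPolynomial.ringHom_ext
    · intro c
      simp only [RingHom.comp_apply, RingHom.coe_coe, Th_C, Ps_aeval, incl, map_C]
    · intro i
      rcases i with i | i
      · simp only [RingHom.comp_apply, RingHom.coe_coe, Th, eval₂Hom_X', Sum.elim_inl, incl, map_X]
        fin_cases i
        · simpa using Ps_q' m
        · simpa using Ps_p' m
        · simpa using Ps_s m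
      · simp only [RingHom.comp_apply, RingHom.coe_coe, Th, eval₂Hom_X', Sum.elim_inr, incl, map_X]
        exact Ps_vs m i
  exact RingHom.congr_fun this h

theorem Th_q' : Th m (X (Sum.inl 0)) = q' (xs m 0) (xs m 1) (xs m 2) (xs m 3) := by
  simp [Th]

theorem Th_p' : Th m (X (Sum.inl 1)) = p' (xs m 0) (xs m 1) (xs m 2) (xs m 3) := by
  simp [Th]

theorem Th_s : Th m (X (Sum.inl 2)) = s (xs m 0) (xs m 1) (xs m 2) (xs m 3) := by
  simp [Th]

theorem Th_v (i : Fin m) : Th m (X (Sum.inr i)) = vs m i := by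
  simp [Th]

theorem Th_T : Th m (C Polynomial.X) = Fm m := by
  rw [Th_C, Polynomial.aeval_X]

theorem Fm_ne : Fm m ≠ 0 := by
  intro h
  have h1 := Ps_F m
  rw [h, map_zero] at h1
  have h2 := hTt m
  rw [← h1, zero_mul] at h2
  exact zero_ne_one h2

/-- elements which become polynomials in the new coordinates after multiplication by `F^n` -/
noncomputable def Good : Subalgebra ℂ (A m) where
  carrier := {f | ∃ (n : ℕ) (h : P m), Fm m ^ n * f = Th m h}
  mul_mem' := by
    rintro a b ⟨n, h, hn⟩ ⟨n', h', hn'⟩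
    refine ⟨n + n', h * h', ?_⟩
    rw [map_mul, ← hn, ← hn']; ring
  add_mem' := by
    rintro a b ⟨n, h, hn⟩ ⟨n', h', hn'⟩
    refine ⟨n + n', (C Polynomial.X) ^ n' * h + (C Polynomial.X) ^ n * h', ?_⟩
    rw [map_add, map_mul, map_mul, map_pow, map_pow, Th_T, ← hn, ← hn']; ring
  algebraMap_mem' := by
    intro r
    refine ⟨0, C (Polynomial.C r), ?_⟩
    rw [Th_C, Polynomial.aeval_C]; simp

theorem good_Th (h : P m) : Th m h ∈ Good m := ⟨0, h, by simp⟩

theorem good_of_mul {f : A m} (h : Fm m * f ∈ Good m) : f ∈ Good m := by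
  obtain ⟨n, g, hg⟩ := h
  exact ⟨n + 1, g, by rw [← hg]; ring⟩

theorem good_num (n : ℕ) [n.AtLeastTwo] : (OfNat.ofNat n : A m) ∈ Good m := by
  have := (Good m).natCast_mem n
  exact_mod_cast this

theorem good_r : r (xs m 0) (xs m 1) (xs m 2) (xs m 3) ∈ Good m := by
  apply good_of_mul
  rw [Fm, id1, ← Th_q', ← Th_p']
  have hQ := good_Th m (X (Sum.inl 0))
  have hP := good_Th m (X (Sum.inl 1))
  exact sub_mem (sub_mem (pow_mem hP 2) (pow_mem hQ 3)) (pow_mem hQ 2)

theorem good_q : q (xs m 0) (xs m 1) (xs m 2) ∈ Good m := by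
  have h : q (xs m 0) (xs m 1) (xs m 2) = q' (xs m 0) (xs m 1) (xs m 2) (xs m 3)
      - r (xs m 0) (xs m 1) (xs m 2) (xs m 3) * (r (xs m 0) (xs m 1) (xs m 2) (xs m 3) + 2) := by
    rw [q']; ring
  rw [h, ← Th_q']
  exact sub_mem (good_Th m _) (mul_mem (good_r m) (add_mem (good_r m) (good_num m 2)))

theorem good_p : p (xs m 0) (xs m 1) (xs m 2) (xs m 3) ∈ Good m := by
  have h : p (xs m 0) (xs m 1) (xs m 2) (xs m 3) = p' (xs m 0) (xs m 1) (xs m 2) (xs m 3)
      - r (xs m 0) (xs m 1) (xs m 2) (xs m 3) * (r (xs m 0) (xs m 1) (xs m 2) (xs m 3) + 1) *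
        (r (xs m 0) (xs m 1) (xs m 2) (xs m 3) + 2) := by
    rw [p']; ring
  rw [h, ← Th_p']
  exact sub_mem (good_Th m _) (mul_mem (mul_mem (good_r m) (add_mem (good_r m) (one_mem _)))
    (add_mem (good_r m) (good_num m 2)))

theorem good_al : al (xs m 0) (xs m 1) (xs m 2) (xs m 3) ∈ Good m := by
  rw [al]
  exact mul_mem (mul_mem (good_num m 2) (add_mem (good_r m) (one_mem _)))
    (add_mem (good_r m) (good_num m 2))

theorem good_ga : ga (xs m 0) (xs m 1) (xs m 2) (xs m 3) ∈ Good m := by
  rw [ga]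
  exact mul_mem (add_mem (good_r m) (good_num m 2))
    (add_mem (add_mem (add_mem (mul_mem (good_num m 3) (good_q m))
      (mul_mem (good_num m 3) (pow_mem (good_r m) 2))) (mul_mem (good_num m 6) (good_r m)))
      (good_num m 2))

theorem good_F : Fm m ∈ Good m := by
  rw [← Th_T]; exact good_Th m _

theorem good_x0 : xs m 0 ∈ Good m := by
  rw [id_x (xs m 0) (xs m 1) (xs m 2) (xs m 3)]
  exact add_mem (sub_mem (good_F m) (mul_mem (good_al m) (good_p m))) (mul_mem (good_ga m) (good_q m))

theorem good_s : s (xs m 0) (xs m 1) (xs m 2) (xs m 3) ∈ Good m := by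
  rw [← Th_s]; exact good_Th m _

theorem good_B : al (xs m 0) (xs m 1) (xs m 2) (xs m 3) * q (xs m 0) (xs m 1) (xs m 2) *
    (q (xs m 0) (xs m 1) (xs m 2) + 1) - ga (xs m 0) (xs m 1) (xs m 2) (xs m 3) *
      p (xs m 0) (xs m 1) (xs m 2) (xs m 3) ∈ Good m :=
  sub_mem (mul_mem (mul_mem (good_al m) (good_q m)) (add_mem (good_q m) (one_mem _)))
    (mul_mem (good_ga m) (good_p m))

theorem good_x1 : xs m 1 ∈ Good m := by
  apply good_of_mul
  rw [Fm, id2, add_sub_assoc]
  exact add_mem (mul_mem (good_x0 m) (good_s m)) (good_B m)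

theorem good_x3 : xs m 3 ∈ Good m := by
  apply good_of_mul
  rw [Fm, id3]
  exact add_mem (add_mem (mul_mem (neg_mem (good_q m)) (good_s m)) (good_p m))
    (mul_mem (good_al m) (good_r m))

theorem good_x2 : xs m 2 ∈ Good m := by
  apply good_of_mul
  apply good_of_mul
  have : Fm m * (Fm m * xs m 2) = Fm m ^ 2 * xs m 2 := by ring
  rw [this, Fm, id4]
  refine add_mem (add_mem (sub_mem (mul_mem (neg_mem (good_x0 m)) (pow_mem (good_s m) 2))
    (mul_mem (mul_mem (good_num m 2) (good_B m)) (good_s m)))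
    (mul_mem (add_mem (good_q m) (one_mem _)) ?_)) (mul_mem ?_ (good_r m))
  · exact sub_mem (add_mem (good_x0 m) (mul_mem (mul_mem (good_num m 2) (good_al m)) (good_p m)))
      (mul_mem (mul_mem (good_num m 2) (good_ga m)) (good_q m))
  · exact sub_mem (mul_mem (pow_mem (good_al m) 2) (add_mem (good_q m) (one_mem _)))
      (pow_mem (good_ga m) 2)

theorem good_all (f : A m) : ∃ (n : ℕ) (h : P m), Fm m ^ n * f = Th m h := by
  suffices h : f ∈ Good m from h
  induction f using MvPolynomial.induction_on with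
  | C a => exact (Good m).algebraMap_mem a
  | add p q hp hq => exact add_mem hp hq
  | mul_X p i hp =>
    refine mul_mem hp ?_
    induction i using Fin.addCases with
    | left j =>
      fin_cases j
      · exact good_x0 m
      · exact good_x1 m
      · exact good_x2 m
      · exact good_x3 m
    | right j =>
      have := good_Th m (X (Sum.inr j))
      rw [Th_v] at this
      exact this

theorem Ps_inj : Function.Injective (Ps m) := by
  rw [injective_iff_map_eq_zero]
  intro f hf
  obtain ⟨n, h, hn⟩ := good_all m f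
  have h1 : incl m h = 0 := by rw [← Ps_Th, ← hn, map_mul, hf, mul_zero]
  have h2 : h = 0 := incl_inj m (by rw [h1, map_zero])
  rw [h2, map_zero] at hn
  rcases mul_eq_zero.1 hn with h3 | h3
  · exact absurd h3 (pow_ne_zero n (Fm_ne m))
  · exact h3

theorem pderiv_Tn_pow (a : Fin 3 ⊕ Fin m) (n : ℕ) (f : L m) :
    pderiv a (Tn m ^ n * f) = Tn m ^ n * pderiv a f := by
  rw [Tn, ← C_pow, pderiv_C_mul]

theorem exists_lift (a : Fin 3 ⊕ Fin m) (f : A m) :
    ∃ (n : ℕ) (g : A m), Ps m g = Tn m ^ n * pderiv a (Ps m f) := by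
  obtain ⟨n, h, hn⟩ := good_all m f
  refine ⟨n, Th m (pderiv a h), ?_⟩
  rw [Ps_Th, ← pderiv_Tn_pow, ← Ps_F, ← map_pow, ← map_mul, hn, Ps_Th, incl, pderiv_map]

theorem intertwine (D : Derivation ℂ (A m) (A m)) (n : ℕ) (a : Fin 3 ⊕ Fin m)
    (h : ∀ i, Ps m (D (X i)) = Tn m ^ n * pderiv a (Ps m (X i))) (f : A m) :
    Ps m (D f) = Tn m ^ n * pderiv a (Ps m f) := by
  induction f using MvPolynomial.induction_on with
  | C r =>
    rw [← MvPolynomial.algebraMap_eq, Derivation.map_algebraMap, AlgHom.commutes, map_zero]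
    have : (algebraMap ℂ (L m)) r = C (algebraMap ℂ K r) := rfl
    rw [this, pderiv_C, mul_zero]
  | add p q hp hq => rw [map_add, map_add, hp, hq, map_add, map_add, mul_add]
  | mul_X p i hp =>
    rw [Derivation.leibniz, map_add, smul_eq_mul, smul_eq_mul, map_mul, map_mul, hp, h i,
      map_mul, pderiv_mul]
    ring

theorem exists_D (a : Fin 3 ⊕ Fin m) :
    ∃ (n : ℕ) (D : Derivation ℂ (A m) (A m)), (∀ i, a = Sum.inr i → D = pderiv (Fin.natAdd 4 i)) ∧
      ∀ f, Ps m (D f) = Tn m ^ n * pderiv a (Ps m f) := by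
  classical
  rcases a with a | a
  · choose n g hg using fun i : Fin (4 + m) => exists_lift m (Sum.inl a) (X i)
    refine ⟨∑ i, n i, mkDerivation ℂ (fun i => Fm m ^ ((∑ i, n i) - n i) * g i),
      fun i hi => by simp at hi, ?_⟩
    apply intertwine
    intro i
    rw [mkDerivation_X, map_mul, hg, map_pow, Ps_F, ← mul_assoc, ← pow_add,
      Nat.sub_add_cancel (Finset.single_le_sum (fun _ _ => Nat.zero_le _) (Finset.mem_univ i))]
  · refine ⟨0, pderiv (Fin.natAdd 4 a), fun i hi => by rw [Sum.inr.inj hi], ?_⟩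
    apply intertwine
    intro i
    rw [pow_zero, one_mul]
    induction i using Fin.addCases with
    | left j =>
      have h1 : pderiv (R := ℂ) (Fin.natAdd 4 a) (X (Fin.castAdd m j)) = 0 := by
        apply pderiv_X_of_ne
        intro h
        have := congrArg Fin.val h
        simp at this
        omega
      rw [h1, map_zero]
      have hT : pderiv (Sum.inr a) (Tn m) = 0 := pderiv_C
      have ht : pderiv (Sum.inr a) (tn m) = 0 := pderiv_C
      have hL : ∀ j, pderiv (Sum.inr a) (Ln m j) = 0 := fun j => pderiv_X_of_ne (by simp)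
      change 0 = pderiv (Sum.inr a) (Ps m (xs m j))
      rw [Ps_xs]
      fin_cases j
      · exact (der_ix _ hT ht (hL 0) (hL 1)).symm
      · exact (der_iy _ hT ht (hL 0) (hL 1) (hL 2)).symm
      · exact (der_iz _ hT ht (hL 0) (hL 1) (hL 2)).symm
      · exact (der_iu _ ht (hL 0) (hL 1) (hL 2)).symm
    | right j =>
      have h2 : Ps m (X (Fin.natAdd 4 j)) = X (Sum.inr j) := Ps_vs m j
      rw [h2, pderiv_X, pderiv_X]
      by_cases hj : a = j
      · subst hj; simp
      · rw [Pi.single_eq_of_ne, Pi.single_eq_of_ne, map_zero]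
        · intro h; exact hj (Sum.inr.inj h).symm
        · intro h
          apply hj
          have := congrArg Fin.val h
          simp at this
          exact Fin.ext this.symm

end Crest.Agent.R268.Comm
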