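import Mathlib

-- ▼ part R268/CritDefs
section

/-!
# Row 268, S0409 and S0410: the polynomial `F` with a critical point on the fibre `F = 0`

`f = y^2 - x z`, `φ = 1 - f`, `g = x u - φ y`, `h = x u^2 - 2 φ y u + φ^2 z`, `x h = g^2 - f φ^2`,
`e = 2 + h`, `t = 1 + h`, `a = h e`, `F = x + 2 e t g + φ e (2 - 3 φ + 3 a)`,
`h F = (g + a t)^2 - (f + a) (φ - a)^2`.
-/

set_option autoImplicit false

namespace Crest.Agent.R268.Cr

section fns
variable {R : Type*} [CommRing R]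

/-- `f = y^2 - x z` -/
def ff (x y z : R) : R := y ^ 2 - x * z
/-- `g = x u - φ y` -/
def gg (x y z u : R) : R := x * u - (1 - ff x y z) * y
/-- `h = x u^2 - 2 φ y u + φ^2 z` -/
def hh (x y z u : R) : R := x * u ^ 2 - 2 * (1 - ff x y z) * y * u + (1 - ff x y z) ^ 2 * z
/-- `a = h (2 + h)` -/
def aa (h : R) : R := h * (2 + h)
/-- `w = e (2 - 3 φ + 3 a)` -/
def ww (f h : R) : R := (2 + h) * (2 - 3 * (1 - f) + 3 * (h * (2 + h)))
/-- `G = 2 e t g` -/
def GG (g h : R) : R := 2 * (2 + h) * (1 + h) * g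
/-- `β = 2 G w + φ w^2 + 4 e^2 t^2 f φ` -/
def be (f g h : R) : R := 2 * GG g h * ww f h + (1 - f) * ww f h ^ 2
  + 4 * (2 + h) ^ 2 * (1 + h) ^ 2 * f * (1 - f)
/-- `α = x + 2 G + 2 φ w + 4 e^2 t^2 h` -/
def al (x f g h : R) : R := x + 2 * GG g h + 2 * (1 - f) * ww f h
  + 4 * (2 + h) ^ 2 * (1 + h) ^ 2 * h
/-- `ζ = β^2 h - f (α^2 x + 2 α β φ)` -/
def ze (x f g h : R) : R := be f g h ^ 2 * h
  - f * (al x f g h ^ 2 * x + 2 * al x f g h * be f g h * (1 - f))
/-- `F` as a function of `x, f, g, h` -/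
def F0 (x f g h : R) : R := x + GG g h + (1 - f) * ww f h
/-- The polynomial `F`. -/
def FF (x y z u : R) : R := F0 x (ff x y z) (gg x y z u) (hh x y z u)
/-- `f1 = f + a` -/
def f1 (x y z u : R) : R := ff x y z + aa (hh x y z u)
/-- `g1 = g + a t` -/
def g1 (x y z u : R) : R := gg x y z u + aa (hh x y z u) * (1 + hh x y z u)
/-- `σ = α y + β u` -/
def sg (x y z u : R) : R := al x (ff x y z) (gg x y z u) (hh x y z u) * y
  + be (ff x y z) (gg x y z u) (hh x y z u) * u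
/-- `P(f,g) = g^2 - f (1-f)^2` -/
def PP (f g : R) : R := g ^ 2 - f * (1 - f) ^ 2

variable (x y z u : R)

theorem x_hh : x * hh x y z u = PP (ff x y z) (gg x y z u) := by
  simp only [PP, hh, gg, ff]; ring

/-- the formal identity behind `h F = P(f1,g1)` -/
theorem PP_shift (f g h : R) : PP (f + aa h) (g + aa h * (1 + h)) =
    PP f g + h * (GG g h + (1 - f) * ww f h) := by
  simp only [PP, GG, ww, aa]; ring

theorem hh_FF : hh x y z u * FF x y z u = PP (f1 x y z u) (g1 x y z u) := by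
  have h1 := x_hh x y z u
  have h2 := PP_shift (ff x y z) (gg x y z u) (hh x y z u)
  simp only [f1, g1, FF, F0]
  linear_combination h1 - h2

/-- `α x + β φ = F^2` as soon as `x h = P(f,g)` -/
theorem al_be (x f g h : R) (hx : x * h = PP f g) :
    al x f g h * x + be f g h * (1 - f) = F0 x f g h ^ 2 := by
  simp only [PP] at hx
  simp only [al, be, F0, GG, ww]
  linear_combination (4 * (2 + h) ^ 2 * (1 + h) ^ 2) * hx

theorem F_y : FF x y z u ^ 2 * y = x * sg x y z u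
    - be (ff x y z) (gg x y z u) (hh x y z u) * gg x y z u := by
  have h1 := al_be x (ff x y z) (gg x y z u) (hh x y z u) (x_hh x y z u)
  have h2 : gg x y z u = x * u - (1 - ff x y z) * y := rfl
  simp only [FF, sg]
  rw [← h1]
  generalize al x (ff x y z) (gg x y z u) (hh x y z u) = α at *
  generalize be (ff x y z) (gg x y z u) (hh x y z u) = β at *
  rw [h2]; ring

theorem F_u : FF x y z u ^ 2 * u = (1 - ff x y z) * sg x y z u
    + al x (ff x y z) (gg x y z u) (hh x y z u) * gg x y z u := by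
  have h1 := al_be x (ff x y z) (gg x y z u) (hh x y z u) (x_hh x y z u)
  have h2 : gg x y z u = x * u - (1 - ff x y z) * y := rfl
  simp only [FF, sg]
  rw [← h1]
  generalize al x (ff x y z) (gg x y z u) (hh x y z u) = α at *
  generalize be (ff x y z) (gg x y z u) (hh x y z u) = β at *
  rw [h2]; ring

theorem F_z : FF x y z u ^ 4 * z = x * sg x y z u ^ 2
    - 2 * be (ff x y z) (gg x y z u) (hh x y z u) * gg x y z u * sg x y z u
    + ze x (ff x y z) (gg x y z u) (hh x y z u) := by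
  have h1 := al_be x (ff x y z) (gg x y z u) (hh x y z u) (x_hh x y z u)
  have h2 : gg x y z u = x * u - (1 - ff x y z) * y := rfl
  have h3 : hh x y z u = x * u ^ 2 - 2 * (1 - ff x y z) * y * u + (1 - ff x y z) ^ 2 * z := rfl
  have h4 : ff x y z = y ^ 2 - x * z := rfl
  have h5 : F0 x (ff x y z) (gg x y z u) (hh x y z u) ^ 4 =
    (F0 x (ff x y z) (gg x y z u) (hh x y z u) ^ 2) ^ 2 := by ring
  simp only [FF, sg, ze]
  rw [h5, ← h1]
  generalize al x (ff x y z) (gg x y z u) (hh x y z u) = α at *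
  generalize be (ff x y z) (gg x y z u) (hh x y z u) = β at *
  rw [h2, h3]
  generalize ff x y z = f at *
  subst h4
  ring

/-! ### The inverse -/

/-- `h` from `(f1, g1, F⁻¹)` -/
def hI (f1 g1 : R) : R := PP f1 g1
/-- `f` from `(f1,g1)` -/
def fI (f1 g1 : R) : R := f1 - aa (hI f1 g1)
/-- `g` from `(f1,g1)` -/
def gI (f1 g1 : R) : R := g1 - aa (hI f1 g1) * (1 + hI f1 g1)
/-- `x` from `(f1,g1)` -/
def xI (f1 g1 : R) : R := 1 - GG (gI f1 g1) (hI f1 g1) - (1 - fI f1 g1) * ww (fI f1 g1) (hI f1 g1)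
/-- `α` from `(f1,g1)` -/
def alI (f1 g1 : R) : R := al (xI f1 g1) (fI f1 g1) (gI f1 g1) (hI f1 g1)
/-- `β` from `(f1,g1)` -/
def beI (f1 g1 : R) : R := be (fI f1 g1) (gI f1 g1) (hI f1 g1)
/-- `y` from `(f1,g1,σ)` -/
def yI (f1 g1 s : R) : R := xI f1 g1 * s - beI f1 g1 * gI f1 g1
/-- `u` from `(f1,g1,σ)` -/
def uI (f1 g1 s : R) : R := (1 - fI f1 g1) * s + alI f1 g1 * gI f1 g1
/-- `z` from `(f1,g1,σ)` -/
def zI (f1 g1 s : R) : R := xI f1 g1 * s ^ 2 - 2 * beI f1 g1 * gI f1 g1 * s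
  + ze (xI f1 g1) (fI f1 g1) (gI f1 g1) (hI f1 g1)

section inv
variable (f1 g1 s : R)

theorem xI_hI : xI f1 g1 * hI f1 g1 = PP (fI f1 g1) (gI f1 g1) := by
  have h := PP_shift (fI f1 g1) (gI f1 g1) (hI f1 g1)
  have h1 : fI f1 g1 + aa (hI f1 g1) = f1 := by simp [fI]
  have h2 : gI f1 g1 + aa (hI f1 g1) * (1 + hI f1 g1) = g1 := by simp [gI]
  rw [h1, h2] at h
  have h3 : PP f1 g1 = hI f1 g1 := rfl
  rw [h3] at h
  simp only [xI]
  linear_combination h

theorem F0I : F0 (xI f1 g1) (fI f1 g1) (gI f1 g1) (hI f1 g1) = 1 := by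
  simp only [F0, xI]; ring

theorem al_beI : alI f1 g1 * xI f1 g1 + beI f1 g1 * (1 - fI f1 g1) = 1 := by
  have h := al_be (xI f1 g1) (fI f1 g1) (gI f1 g1) (hI f1 g1) (xI_hI f1 g1)
  rw [F0I] at h
  simpa [alI, beI] using h

theorem ffI : ff (xI f1 g1) (yI f1 g1 s) (zI f1 g1 s) = fI f1 g1 := by
  have h1 := xI_hI f1 g1
  have h2 := al_beI f1 g1
  simp only [ff, yI, zI, ze]
  change _ - _ * (_ - _ + (beI f1 g1 ^ 2 * hI f1 g1 - fI f1 g1 * (alI f1 g1 ^ 2 * xI f1 g1 +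
    2 * alI f1 g1 * beI f1 g1 * (1 - fI f1 g1)))) = _
  simp only [PP] at h1
  generalize xI f1 g1 = x at *
  generalize hI f1 g1 = h at *
  generalize fI f1 g1 = f at *
  generalize gI f1 g1 = g at *
  generalize alI f1 g1 = α at *
  generalize beI f1 g1 = β at *
  linear_combination (-β ^ 2) * h1 + f * (α * x + β * (1 - f) + 1) * h2

theorem ggI : gg (xI f1 g1) (yI f1 g1 s) (zI f1 g1 s) (uI f1 g1 s) = gI f1 g1 := by
  have h2 := al_beI f1 g1
  rw [gg, ffI]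
  simp only [yI, uI]
  linear_combination gI f1 g1 * h2

theorem hhI : hh (xI f1 g1) (yI f1 g1 s) (zI f1 g1 s) (uI f1 g1 s) = hI f1 g1 := by
  have h1 := xI_hI f1 g1
  have h2 := al_beI f1 g1
  rw [hh, ffI]
  simp only [yI, uI, zI, ze]
  change _ - _ + _ * (_ - _ + (beI f1 g1 ^ 2 * hI f1 g1 - fI f1 g1 * (alI f1 g1 ^ 2 * xI f1 g1 +
    2 * alI f1 g1 * beI f1 g1 * (1 - fI f1 g1)))) = _
  simp only [PP] at h1
  generalize xI f1 g1 = x at *
  generalize hI f1 g1 = h at *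
  generalize fI f1 g1 = f at *
  generalize gI f1 g1 = g at *
  generalize alI f1 g1 = α at *
  generalize beI f1 g1 = β at *
  linear_combination (-(α ^ 2 * x + 2 * α * β * (1 - f))) * h1
    + h * (α * x + β * (1 - f) + 1) * h2

theorem FFI : FF (xI f1 g1) (yI f1 g1 s) (zI f1 g1 s) (uI f1 g1 s) = 1 := by
  simp only [FF, ffI, ggI, hhI, F0I]

theorem f1I : Cr.f1 (xI f1 g1) (yI f1 g1 s) (zI f1 g1 s) (uI f1 g1 s) = f1 := by
  simp only [Cr.f1, ffI, hhI, fI]; ring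

theorem g1I : Cr.g1 (xI f1 g1) (yI f1 g1 s) (zI f1 g1 s) (uI f1 g1 s) = g1 := by
  simp only [Cr.g1, ggI, hhI, gI]; ring

theorem sgI : sg (xI f1 g1) (yI f1 g1 s) (zI f1 g1 s) (uI f1 g1 s) = s := by
  have h2 := al_beI f1 g1
  simp only [sg, ffI, ggI, hhI]
  change alI f1 g1 * _ + beI f1 g1 * _ = _
  simp only [yI, uI]
  linear_combination s * h2

end inv

section inv'
variable {x y z u : R} (hF : FF x y z u = 1)
include hF

theorem hI_eq : hI (f1 x y z u) (g1 x y z u) = hh x y z u := by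
  have h := hh_FF x y z u
  rw [hF, mul_one] at h
  exact h.symm

theorem fI_eq : fI (f1 x y z u) (g1 x y z u) = ff x y z := by
  simp only [fI, hI_eq hF]; simp [f1]

theorem gI_eq : gI (f1 x y z u) (g1 x y z u) = gg x y z u := by
  simp only [gI, hI_eq hF]; simp [g1]

theorem xI_eq : xI (f1 x y z u) (g1 x y z u) = x := by
  simp only [xI, hI_eq hF, fI_eq hF, gI_eq hF]
  simp only [FF, F0] at hF
  linear_combination -hF

theorem yI_eq : yI (f1 x y z u) (g1 x y z u) (sg x y z u) = y := by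
  have h := F_y x y z u
  rw [hF] at h
  simp only [yI, beI, xI_eq hF, hI_eq hF, fI_eq hF, gI_eq hF]
  linear_combination -h

theorem uI_eq : uI (f1 x y z u) (g1 x y z u) (sg x y z u) = u := by
  have h := F_u x y z u
  rw [hF] at h
  simp only [uI, alI, xI_eq hF, hI_eq hF, fI_eq hF, gI_eq hF]
  linear_combination -h

theorem zI_eq : zI (f1 x y z u) (g1 x y z u) (sg x y z u) = z := by
  have h := F_z x y z u
  rw [hF] at h
  simp only [zI, beI, xI_eq hF, hI_eq hF, fI_eq hF, gI_eq hF]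
  linear_combination -h

end inv'

end fns

end Crest.Agent.R268.Cr
end

-- ▼ part R268/NoCoordCrit
section

/-!
# Row 268: a polynomial with a critical point is not a coordinate
-/

set_option autoImplicit false

namespace Crest.Agent.R268.Cr

open MvPolynomial

theorem sum_der_apply {σ ι : Type*} (s : Finset ι)
    (F : ι → Derivation ℂ (MvPolynomial σ ℂ) (MvPolynomial σ ℂ)) (q : MvPolynomial σ ℂ) :
    (∑ i ∈ s, F i) q = ∑ i ∈ s, F i q := by
  have h := map_sum (Derivation.coeFnAddMonoidHom (R := ℂ) (A := MvPolynomial σ ℂ)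
    (M := MvPolynomial σ ℂ)) F s
  have h2 := congrFun h q
  rw [Finset.sum_apply] at h2
  exact h2

/-- A derivation of a polynomial ring is `∑ D(X_i) ∂_i`, so it kills at `p` a polynomial with critical
point `p`. -/
theorem eval_der_of_crit {σ : Type*} [Fintype σ] [DecidableEq σ] (q : MvPolynomial σ ℂ) (p : σ → ℂ)
    (h : ∀ i, eval p (pderiv i q) = 0) (D : Derivation ℂ (MvPolynomial σ ℂ) (MvPolynomial σ ℂ)) :
    eval p (D q) = 0 := by
  have h2 : D q = ∑ i, pderiv i q * D (X i) := by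
    have h3 : D = ∑ i, D (X i) • pderiv i := by
      apply MvPolynomial.derivation_ext
      intro j
      simp [sum_der_apply, pderiv_X, Pi.single_apply]
    conv_lhs => rw [h3]
    simp [sum_der_apply, mul_comm]
  rw [h2, map_sum]
  refine Finset.sum_eq_zero fun i _ => ?_
  rw [map_mul, h i, zero_mul]

theorem no_coord_of_crit {σ : Type*} [Fintype σ] [DecidableEq σ] (q : MvPolynomial σ ℂ) (p : σ → ℂ)
    (h : ∀ i, eval p (pderiv i q) = 0) (τ : MvPolynomial σ ℂ ≃ₐ[ℂ] MvPolynomial σ ℂ) (j : σ)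
    (hτ : τ q = X j) : False := by
  -- the derivation `τ⁻¹ ∘ ∂_j ∘ τ`
  let D : Derivation ℂ (MvPolynomial σ ℂ) (MvPolynomial σ ℂ) :=
    Derivation.mk' ((τ.symm.toLinearMap ∘ₗ (pderiv j).toLinearMap) ∘ₗ τ.toLinearMap) (by
      intro a b
      simp [Derivation.leibniz, map_add, map_mul, smul_eq_mul])
  have h1 := eval_der_of_crit q p h D
  have h2 : D q = 1 := by
    change τ.symm (pderiv j (τ q)) = 1
    rw [hτ, pderiv_X_self, map_one]
  rw [h2, map_one] at h1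
  exact one_ne_zero h1

end Crest.Agent.R268.Cr
end

-- ▼ part R268/CritFib

/-!
# Row 268, S0409: the fibre `F = 1` is an affine space
-/

set_option autoImplicit false
set_option linter.unusedSimpArgs false

namespace Crest.Agent.R268.Cr

open MvPolynomial

section maps
variable {R S : Type*} [CommRing R] [CommRing S] (φ : R →+* S)

theorem map_ff (x y z : R) : φ (ff x y z) = ff (φ x) (φ y) (φ z) := by simp [map_ofNat, ff]
theorem map_gg (x y z u : R) : φ (gg x y z u) = gg (φ x) (φ y) (φ z) (φ u) := by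
  simp [map_ofNat, gg, map_ff]
theorem map_hh (x y z u : R) : φ (hh x y z u) = hh (φ x) (φ y) (φ z) (φ u) := by
  simp [map_ofNat, hh, map_ff]
theorem map_aa (h : R) : φ (aa h) = aa (φ h) := by simp [map_ofNat, aa]
theorem map_ww (f h : R) : φ (ww f h) = ww (φ f) (φ h) := by simp [map_ofNat, ww]
theorem map_GG (g h : R) : φ (GG g h) = GG (φ g) (φ h) := by simp [map_ofNat, GG]
theorem map_be (f g h : R) : φ (be f g h) = be (φ f) (φ g) (φ h) := by
  simp [map_ofNat, be, map_ww, map_GG]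
theorem map_al (x f g h : R) : φ (al x f g h) = al (φ x) (φ f) (φ g) (φ h) := by
  simp [map_ofNat, al, map_ww, map_GG]
theorem map_ze (x f g h : R) : φ (ze x f g h) = ze (φ x) (φ f) (φ g) (φ h) := by
  simp [map_ofNat, ze, map_be, map_al]
theorem map_F0 (x f g h : R) : φ (F0 x f g h) = F0 (φ x) (φ f) (φ g) (φ h) := by
  simp [map_ofNat, F0, map_ww, map_GG]
theorem map_FF (x y z u : R) : φ (FF x y z u) = FF (φ x) (φ y) (φ z) (φ u) := by
  simp [map_ofNat, FF, map_F0, map_ff, map_gg, map_hh]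
theorem map_f1 (x y z u : R) : φ (f1 x y z u) = f1 (φ x) (φ y) (φ z) (φ u) := by
  simp [map_ofNat, f1, map_aa, map_ff, map_hh]
theorem map_g1 (x y z u : R) : φ (g1 x y z u) = g1 (φ x) (φ y) (φ z) (φ u) := by
  simp [map_ofNat, g1, map_aa, map_gg, map_hh]
theorem map_sg (x y z u : R) : φ (sg x y z u) = sg (φ x) (φ y) (φ z) (φ u) := by
  simp [map_ofNat, sg, map_al, map_be, map_ff, map_gg, map_hh]
theorem map_PP (f g : R) : φ (PP f g) = PP (φ f) (φ g) := by simp [map_ofNat, PP]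
theorem map_hI (f g : R) : φ (hI f g) = hI (φ f) (φ g) := by simp [map_ofNat, hI, map_PP]
theorem map_fI (f g : R) : φ (fI f g) = fI (φ f) (φ g) := by simp [map_ofNat, fI, map_hI, map_aa]
theorem map_gI (f g : R) : φ (gI f g) = gI (φ f) (φ g) := by simp [map_ofNat, gI, map_hI, map_aa]
theorem map_xI (f g : R) : φ (xI f g) = xI (φ f) (φ g) := by
  simp [map_ofNat, xI, map_hI, map_fI, map_gI, map_GG, map_ww]
theorem map_alI (f g : R) : φ (alI f g) = alI (φ f) (φ g) := by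
  simp [map_ofNat, alI, map_al, map_hI, map_fI, map_gI, map_xI]
theorem map_beI (f g : R) : φ (beI f g) = beI (φ f) (φ g) := by
  simp [map_ofNat, beI, map_be, map_hI, map_fI, map_gI]
theorem map_yI (f g s : R) : φ (yI f g s) = yI (φ f) (φ g) (φ s) := by
  simp [map_ofNat, yI, map_beI, map_gI, map_xI]
theorem map_uI (f g s : R) : φ (uI f g s) = uI (φ f) (φ g) (φ s) := by
  simp [map_ofNat, uI, map_alI, map_fI, map_gI]
theorem map_zI (f g s : R) : φ (zI f g s) = zI (φ f) (φ g) (φ s) := by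
  simp [map_ofNat, zI, map_beI, map_gI, map_xI, map_ze, map_fI, map_hI]

end maps

/-- the polynomial ring in four variables `x,y,z,u = X 0, X 1, X 2, X 3` -/
abbrev P4 := MvPolynomial (Fin 4) ℂ
/-- the polynomial ring in three variables -/
abbrev P3 := MvPolynomial (Fin 3) ℂ

/-- The polynomial `F`. -/
noncomputable def FB : P4 := FF (X 0) (X 1) (X 2) (X 3)

/-- the map `B → ℂ[f1,g1,σ]` -/
noncomputable def fwd : P4 →ₐ[ℂ] P3 :=
  aeval ![xI (X 0) (X 1), yI (X 0) (X 1) (X 2), zI (X 0) (X 1) (X 2), uI (X 0) (X 1) (X 2)]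

theorem fwd_X0 : fwd (X 0) = xI (X 0) (X 1) := by simp [fwd]
theorem fwd_X1 : fwd (X 1) = yI (X 0) (X 1) (X 2) := by simp [fwd]
theorem fwd_X2 : fwd (X 2) = zI (X 0) (X 1) (X 2) := by simp [fwd]
theorem fwd_X3 : fwd (X 3) = uI (X 0) (X 1) (X 2) := by simp [fwd]

theorem fwd_FB : fwd FB = 1 := by
  have h := map_FF (fwd : P4 →+* P3) (X 0) (X 1) (X 2) (X 3)
  simp only [RingHom.coe_coe] at h
  rw [FB, h, fwd_X0, fwd_X1, fwd_X2, fwd_X3, FFI]

/-- the induced map on the quotient -/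
noncomputable def fwdQ : (P4 ⧸ Ideal.span {FB - 1}) →ₐ[ℂ] P3 :=
  Ideal.Quotient.liftₐ _ fwd (by
    intro a ha
    have hle : Ideal.span {FB - 1} ≤ RingHom.ker fwd := by
      rw [Ideal.span_singleton_le_iff_mem, RingHom.mem_ker, map_sub, fwd_FB, map_one, sub_self]
    exact hle ha)


/-- the quotient map -/
noncomputable def qm : P4 →+* (P4 ⧸ Ideal.span {FB - 1}) := Ideal.Quotient.mk _

theorem fwdQ_qm (p : P4) : fwdQ (qm p) = fwd p := rfl

theorem qm_FF : FF (qm (X 0)) (qm (X 1)) (qm (X 2)) (qm (X 3)) = 1 := by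
  rw [← map_FF qm]
  have : qm (FB - 1) = 0 := by
    rw [qm, Ideal.Quotient.eq_zero_iff_mem]
    exact Ideal.subset_span rfl
  rw [map_sub, map_one, sub_eq_zero] at this
  exact this

/-- the map `ℂ[f1,g1,σ] → B/(F-1)` -/
noncomputable def bwd : P3 →ₐ[ℂ] (P4 ⧸ Ideal.span {FB - 1}) :=
  aeval ![qm (f1 (X 0) (X 1) (X 2) (X 3)), qm (g1 (X 0) (X 1) (X 2) (X 3)),
    qm (sg (X 0) (X 1) (X 2) (X 3))]

theorem bwd_X0 : bwd (X 0) = f1 (qm (X 0)) (qm (X 1)) (qm (X 2)) (qm (X 3)) := by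
  simp [bwd, map_f1]
theorem bwd_X1 : bwd (X 1) = g1 (qm (X 0)) (qm (X 1)) (qm (X 2)) (qm (X 3)) := by
  simp [bwd, map_g1]
theorem bwd_X2 : bwd (X 2) = sg (qm (X 0)) (qm (X 1)) (qm (X 2)) (qm (X 3)) := by
  simp [bwd, map_sg]

theorem fib_one : Nonempty ((P4 ⧸ Ideal.span {FB - 1}) ≃ₐ[ℂ] P3) := by
  refine ⟨AlgEquiv.ofAlgHom fwdQ bwd ?_ ?_⟩
  · ext i : 1
    rw [AlgHom.comp_apply, AlgHom.id_apply]
    fin_cases i
    · show fwdQ (bwd (X 0)) = X 0
      rw [bwd_X0, ← map_f1, fwdQ_qm]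
      have h := map_f1 (fwd : P4 →+* P3) (X 0) (X 1) (X 2) (X 3)
      simp only [RingHom.coe_coe] at h
      rw [h, fwd_X0, fwd_X1, fwd_X2, fwd_X3, f1I]
    · show fwdQ (bwd (X 1)) = X 1
      rw [bwd_X1, ← map_g1, fwdQ_qm]
      have h := map_g1 (fwd : P4 →+* P3) (X 0) (X 1) (X 2) (X 3)
      simp only [RingHom.coe_coe] at h
      rw [h, fwd_X0, fwd_X1, fwd_X2, fwd_X3, g1I]
    · show fwdQ (bwd (X 2)) = X 2
      rw [bwd_X2, ← map_sg, fwdQ_qm]
      have h := map_sg (fwd : P4 →+* P3) (X 0) (X 1) (X 2) (X 3)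
      simp only [RingHom.coe_coe] at h
      rw [h, fwd_X0, fwd_X1, fwd_X2, fwd_X3, sgI]
  · apply Ideal.Quotient.algHom_ext
    ext i : 1
    rw [AlgHom.comp_apply, AlgHom.comp_apply, AlgHom.comp_apply, AlgHom.id_apply]
    change bwd (fwdQ (qm (X i))) = qm (X i)
    rw [fwdQ_qm]
    fin_cases i
    · show bwd (fwd (X 0)) = qm (X 0)
      have h := map_xI (bwd : P3 →+* (P4 ⧸ Ideal.span {FB - 1})) (X 0) (X 1)
      simp only [RingHom.coe_coe] at h
      rw [fwd_X0, h, bwd_X0, bwd_X1, xI_eq qm_FF]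
    · show bwd (fwd (X 1)) = qm (X 1)
      have h := map_yI (bwd : P3 →+* (P4 ⧸ Ideal.span {FB - 1})) (X 0) (X 1) (X 2)
      simp only [RingHom.coe_coe] at h
      rw [fwd_X1, h, bwd_X0, bwd_X1, bwd_X2, yI_eq qm_FF]
    · show bwd (fwd (X 2)) = qm (X 2)
      have h := map_zI (bwd : P3 →+* (P4 ⧸ Ideal.span {FB - 1})) (X 0) (X 1) (X 2)
      simp only [RingHom.coe_coe] at h
      rw [fwd_X2, h, bwd_X0, bwd_X1, bwd_X2, zI_eq qm_FF]
    · show bwd (fwd (X 3)) = qm (X 3)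
      have h := map_uI (bwd : P3 →+* (P4 ⧸ Ideal.span {FB - 1})) (X 0) (X 1) (X 2)
      simp only [RingHom.coe_coe] at h
      rw [fwd_X3, h, bwd_X0, bwd_X1, bwd_X2, uI_eq qm_FF]

/-! ### The critical point -/

/-- the critical point -/
def pt : Fin 4 → ℂ := ![2, 0, -1, 0]

/-- first order jets at a point -/
structure Jet (p : Fin 4 → ℂ) (q : P4) (v : ℂ) (d : Fin 4 → ℂ) : Prop where
  val : eval p q = v
  der : ∀ i, eval p (pderiv i q) = d i

theorem Jet.mul {p : Fin 4 → ℂ} {q₁ q₂ : P4} {v₁ v₂ : ℂ} {d₁ d₂ : Fin 4 → ℂ}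
    (h₁ : Jet p q₁ v₁ d₁) (h₂ : Jet p q₂ v₂ d₂) :
    Jet p (q₁ * q₂) (v₁ * v₂) (fun i => v₁ * d₂ i + v₂ * d₁ i) := by
  refine ⟨by rw [map_mul, h₁.val, h₂.val], fun i => ?_⟩
  rw [Derivation.leibniz, smul_eq_mul, smul_eq_mul, map_add, map_mul, map_mul, h₁.val, h₂.val,
    h₁.der, h₂.der]

theorem Jet.add {p : Fin 4 → ℂ} {q₁ q₂ : P4} {v₁ v₂ : ℂ} {d₁ d₂ : Fin 4 → ℂ}
    (h₁ : Jet p q₁ v₁ d₁) (h₂ : Jet p q₂ v₂ d₂) :
    Jet p (q₁ + q₂) (v₁ + v₂) (fun i => d₁ i + d₂ i) := by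
  refine ⟨by rw [map_add, h₁.val, h₂.val], fun i => ?_⟩
  rw [map_add, map_add, h₁.der, h₂.der]

theorem Jet.sub {p : Fin 4 → ℂ} {q₁ q₂ : P4} {v₁ v₂ : ℂ} {d₁ d₂ : Fin 4 → ℂ}
    (h₁ : Jet p q₁ v₁ d₁) (h₂ : Jet p q₂ v₂ d₂) :
    Jet p (q₁ - q₂) (v₁ - v₂) (fun i => d₁ i - d₂ i) := by
  refine ⟨by rw [map_sub, h₁.val, h₂.val], fun i => ?_⟩
  rw [map_sub, map_sub, h₁.der, h₂.der]

theorem Jet.one (p : Fin 4 → ℂ) : Jet p (1 : P4) 1 (fun _ => 0) := ⟨by simp, by simp⟩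

theorem Jet.nat (p : Fin 4 → ℂ) (n : ℕ) [n.AtLeastTwo] :
    Jet p (OfNat.ofNat n : P4) (OfNat.ofNat n) (fun _ => 0) := by
  have h : (OfNat.ofNat n : P4) = C (OfNat.ofNat n : ℂ) := by rw [map_ofNat]
  refine ⟨by rw [h, eval_C], fun i => by rw [h, pderiv_C, map_zero]⟩

theorem Jet.X (p : Fin 4 → ℂ) (j : Fin 4) :
    Jet p (MvPolynomial.X j : P4) (p j) (fun i => if i = j then 1 else 0) := by
  refine ⟨by simp, fun i => ?_⟩
  rw [pderiv_X]
  by_cases h : i = j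
  · subst h; simp
  · simp [h, Ne.symm h]

theorem Jet.congr {p : Fin 4 → ℂ} {q : P4} {v v' : ℂ} {d d' : Fin 4 → ℂ}
    (h : Jet p q v d) (hv : v = v') (hd : ∀ i, d i = d' i) : Jet p q v' d' := by
  obtain rfl := hv
  obtain rfl : d = d' := funext hd
  exact h

theorem jet_f : Jet pt (ff (X 0) (X 1) (X 2)) 2 ![1, 0, -2, 0] := by
  have h := ((Jet.X pt 1).mul (Jet.X pt 1)).sub ((Jet.X pt 0).mul (Jet.X pt 2))
  rw [ff, pow_two]
  refine h.congr (by simp [pt]) (fun i => ?_)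
  fin_cases i <;> simp [pt]

theorem jet_phi : Jet pt (1 - ff (X 0) (X 1) (X 2)) (-1) ![-1, 0, 2, 0] := by
  refine ((Jet.one pt).sub jet_f).congr (by norm_num) (fun i => ?_)
  fin_cases i <;> simp

theorem jet_g : Jet pt (gg (X 0) (X 1) (X 2) (X 3)) 0 ![0, 1, 0, 2] := by
  have h := ((Jet.X pt 0).mul (Jet.X pt 3)).sub (jet_phi.mul (Jet.X pt 1))
  rw [gg]
  refine h.congr (by simp [pt]) (fun i => ?_)
  fin_cases i <;> simp [pt]

theorem jet_h : Jet pt (hh (X 0) (X 1) (X 2) (X 3)) (-1) ![-2, 0, 5, 0] := by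
  have h := (((Jet.X pt 0).mul ((Jet.X pt 3).mul (Jet.X pt 3))).sub
    ((((Jet.nat pt 2).mul jet_phi).mul (Jet.X pt 1)).mul (Jet.X pt 3))).add
    ((jet_phi.mul jet_phi).mul (Jet.X pt 2))
  rw [hh, pow_two, pow_two]
  refine h.congr (by simp [pt]) (fun i => ?_)
  fin_cases i <;> simp [pt] <;> norm_num

theorem jet_G : Jet pt (GG (gg (X 0) (X 1) (X 2) (X 3)) (hh (X 0) (X 1) (X 2) (X 3))) 0
    ![0, 0, 0, 0] := by
  have h := ((((Jet.nat pt 2).mul ((Jet.nat pt 2).add jet_h)).mul ((Jet.one pt).add jet_h))).mul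
    jet_g
  rw [GG]
  refine h.congr (by simp) (fun i => ?_)
  fin_cases i <;> simp

theorem jet_w : Jet pt (ww (ff (X 0) (X 1) (X 2)) (hh (X 0) (X 1) (X 2) (X 3))) 2
    ![-1, 0, 4, 0] := by
  have h := ((Jet.nat pt 2).add jet_h).mul ((((Jet.nat pt 2).sub ((Jet.nat pt 3).mul jet_phi))).add
    ((Jet.nat pt 3).mul (jet_h.mul ((Jet.nat pt 2).add jet_h))))
  rw [ww]
  refine h.congr (by norm_num) (fun i => ?_)
  fin_cases i <;> simp <;> norm_num

theorem jet_F : Jet pt FB 0 ![0, 0, 0, 0] := by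
  have h := ((Jet.X pt 0).add jet_G).add (jet_phi.mul jet_w)
  rw [FB, FF, F0]
  refine h.congr (by simp [pt]) (fun i => ?_)
  fin_cases i <;> simp <;> norm_num

theorem FB_crit (i : Fin 4) : eval pt (pderiv i FB) = 0 := by
  rw [jet_F.der i]; fin_cases i <;> rfl


end Crest.Agent.R268.Cr
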