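import Mathlib

-- ▼ part R268/Defs
section

/-!
# Row 268: the explicit polynomial

`f = q + g * (g*p + a*q)`, `g = 1 - a p^2 - q r` in `ℂ[a,p,q,r]`.
All auxiliary functions are defined in an arbitrary commutative ring.
-/

set_option autoImplicit false

namespace Crest.Agent.R268

section fns
variable {R : Type*} [CommRing R] (a p q r : R)

/-- `g = 1 - a p^2 - q r` -/
def gg : R := 1 - a * p ^ 2 - q * r
/-- `F = g p + a q` -/
def FF : R := gg a p q r * p + a * q
/-- `x = q + g F`, the main polynomial -/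
def xx : R := q + gg a p q r * FF a p q r
/-- `ρ = (1 - a g) p - a^2 q` -/
def rho : R := (1 - a * gg a p q r) * p - a ^ 2 * q
/-- `k = g^2 r - a (1 + a g) p` -/
def kk : R := gg a p q r ^ 2 * r - a * (1 + a * gg a p q r) * p
/-- `b = -(1 - a g) r - a^3 p` -/
def bb : R := -(1 - a * gg a p q r) * r - a ^ 3 * p
/-- `t = g k - x a^2` -/
def tt : R := gg a p q r * kk a p q r - xx a p q r * a ^ 2
/-- `c = ρ + t` -/
def cc : R := rho a p q r + tt a p q r

theorem id_F : FF a p q r = xx a p q r * a + gg a p q r * rho a p q r := by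
  simp only [FF, xx, rho, gg]; ring

theorem id_q : q = xx a p q r - gg a p q r * FF a p q r := by
  simp only [xx]; ring

theorem id_p : p = a * FF a p q r + rho a p q r := by
  simp only [FF, rho]; ring

theorem id_r : r = a ^ 2 * kk a p q r - (1 + a * gg a p q r) * bb a p q r := by
  simp only [kk, bb]; ring

theorem id_g : gg a p q r = 1 + rho a p q r * kk a p q r + xx a p q r * bb a p q r := by
  simp only [FF, xx, rho, kk, bb, gg]; ring

/-- `x t = F g c - F^2 - g^3 (g - 1)` -/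
theorem id_xt : xx a p q r * tt a p q r =
    FF a p q r * gg a p q r * cc a p q r - FF a p q r ^ 2
      - gg a p q r ^ 3 * (gg a p q r - 1) := by
  simp only [cc, tt, FF, xx, rho, kk, gg]; ring

theorem id_k : kk a p q r = a * (tt a p q r - rho a p q r) - gg a p q r ^ 2 * bb a p q r
    - gg a p q r * rho a p q r * a ^ 2 := by
  simp only [tt, xx, FF, rho, kk, bb, gg]; ring

/-- `ρ t = g (g-1) - x (g b + ρ a^2)` -/
theorem id_rt : rho a p q r * tt a p q r = gg a p q r * (gg a p q r - 1)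
    - xx a p q r * (gg a p q r * bb a p q r + rho a p q r * a ^ 2) := by
  simp only [tt, xx, FF, rho, kk, bb, gg]; ring

end fns

/-- the polynomial ring in four variables `a,p,q,r = X 0, X 1, X 2, X 3` -/
abbrev P4 := MvPolynomial (Fin 4) ℂ
/-- the polynomial ring in three variables -/
abbrev P3 := MvPolynomial (Fin 3) ℂ

/-- The example `f = q + g (g p + a q)`, `g = 1 - a p^2 - q r`. -/
noncomputable def fB : P4 :=
  xx (MvPolynomial.X 0) (MvPolynomial.X 1) (MvPolynomial.X 2) (MvPolynomial.X 3)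

end Crest.Agent.R268
end

-- ▼ part R268/LND
section

/-! Locally nilpotent derivations: degree additivity, factorial closedness. -/

set_option autoImplicit false

namespace Crest.Agent.R268

open MvPolynomial

section LND
variable {R : Type*} [CommRing R] [Algebra ℂ R]

/-- local nilpotency -/
def LN (D : Derivation ℂ R R) : Prop := ∀ u : R, ∃ n : ℕ, (⇑D)^[n] u = 0

theorem iter_zero (D : Derivation ℂ R R) (n : ℕ) : (⇑D)^[n] (0 : R) = 0 := by
  induction n with
  | zero => rfl
  | succ n ih => rw [Function.iterate_succ_apply, map_zero, ih]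

theorem iter_le (D : Derivation ℂ R R) {n m : ℕ} {u : R} (h : (⇑D)^[n] u = 0) (hnm : n ≤ m) :
    (⇑D)^[m] u = 0 := by
  obtain ⟨k, rfl⟩ := Nat.exists_eq_add_of_le hnm
  rw [Nat.add_comm, Function.iterate_add_apply, h, iter_zero]

theorem iter_add (D : Derivation ℂ R R) (n : ℕ) (u v : R) :
    (⇑D)^[n] (u + v) = (⇑D)^[n] u + (⇑D)^[n] v := by
  induction n generalizing u v with
  | zero => rfl
  | succ n ih => rw [Function.iterate_succ_apply, map_add, ih]; rfl

theorem iter_mul (D : Derivation ℂ R R) (N : ℕ) : ∀ (n m : ℕ) (u v : R), n + m = N →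
    (⇑D)^[n + 1] u = 0 → (⇑D)^[m + 1] v = 0 →
    (⇑D)^[N + 1] (u * v) = 0 ∧
    (⇑D)^[N] (u * v) = (N.choose n : R) * ((⇑D)^[n] u * (⇑D)^[m] v) := by
  induction N with
  | zero =>
    intro n m u v h hu hv
    obtain ⟨rfl, rfl⟩ : n = 0 ∧ m = 0 := by omega
    simp only [zero_add, Function.iterate_one] at hu hv
    simp [hu, hv]
  | succ N ih =>
    intro n m u v h hu hv
    have h1 : (⇑D)^[N + 1] (u * D v) = 0 ∧
        (⇑D)^[N] (u * D v) = (N.choose n : R) * ((⇑D)^[n] u * (⇑D)^[m] v) := by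
      rcases m with _ | m
      · have hv' : D v = 0 := hv
        have hn : N.choose n = 0 := Nat.choose_eq_zero_of_lt (by omega)
        rw [hv', mul_zero, iter_zero, iter_zero, hn]
        simp
      · have := ih n m u (D v) (by omega) hu hv
        exact this
    have h2 : (⇑D)^[N + 1] (v * D u) = 0 ∧
        (⇑D)^[N] (v * D u) = ((if n = 0 then 0 else N.choose (n - 1) : ℕ) : R) *
          ((⇑D)^[n] u * (⇑D)^[m] v) := by
      rcases n with _ | n
      · have hu' : D u = 0 := hu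
        rw [hu', mul_zero, iter_zero, iter_zero]
        simp
      · have := ih n m (D u) v (by omega) hu hv
        rw [mul_comm v (D u)]
        simpa using this
    have hD : D (u * v) = u * D v + v * D u := by
      simp [Derivation.leibniz]
    refine ⟨?_, ?_⟩
    · rw [Function.iterate_succ_apply, hD, iter_add, h1.1, h2.1, add_zero]
    · rw [Function.iterate_succ_apply, hD, iter_add, h1.2, h2.2, ← add_mul]
      congr 1
      rcases n with _ | n
      · simp
      · rw [Nat.choose_succ_succ]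
        push_cast
        simp [add_comm]

theorem exists_deg {D : Derivation ℂ R R} (hD : LN D) {u : R} (hu : u ≠ 0) :
    ∃ n, (⇑D)^[n] u ≠ 0 ∧ (⇑D)^[n + 1] u = 0 := by
  classical
  have h := hD u
  have h0 : Nat.find h ≠ 0 := by
    intro h0
    have := Nat.find_spec h
    rw [h0] at this
    exact hu this
  obtain ⟨n, hn⟩ := Nat.exists_eq_succ_of_ne_zero h0
  refine ⟨n, ?_, ?_⟩
  · exact Nat.find_min h (by omega)
  · have := Nat.find_spec h
    rwa [hn] at this

variable [IsDomain R]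

theorem choose_ne (N n : ℕ) (h : n ≤ N) : (N.choose n : R) ≠ 0 := by
  have h0 : ((N.choose n : ℕ) : ℂ) ≠ 0 := by exact_mod_cast (Nat.choose_pos h).ne'
  intro hc
  have h1 : algebraMap ℂ R ((N.choose n : ℕ) : ℂ) = 0 := by rw [map_natCast]; exact hc
  exact h0 ((map_eq_zero_iff _ (algebraMap ℂ R).injective).mp h1)

/-- factorial closedness of the kernel -/
theorem ker_of_mul {D : Derivation ℂ R R} (hD : LN D) {u v : R} (hu : u ≠ 0) (hv : v ≠ 0)
    (h : D (u * v) = 0) : D u = 0 := by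
  obtain ⟨n, hn, hn'⟩ := exists_deg hD hu
  obtain ⟨m, hm, hm'⟩ := exists_deg hD hv
  have key := (iter_mul D (n + m) n m u v rfl hn' hm').2
  rcases n with _ | n
  · exact hn'
  · exfalso
    have : (⇑D)^[n + 1 + m] (u * v) = 0 := by
      have e : n + 1 + m = (n + m) + 1 := by omega
      rw [e, Function.iterate_succ_apply, h, iter_zero]
    rw [this] at key
    exact mul_ne_zero (choose_ne _ _ (by omega)) (mul_ne_zero hn hm) key.symm

theorem ker_of_mul' {D : Derivation ℂ R R} (hD : LN D) {u v : R} (hu : u ≠ 0) (hv : v ≠ 0)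
    (h : D (u * v) = 0) : D v = 0 :=
  ker_of_mul hD hv hu (by rwa [mul_comm])

/-- if `D u ∈ (u)` then `D u = 0` -/
theorem ker_of_dvd {D : Derivation ℂ R R} (hD : LN D) {u : R} (h : u ∣ D u) : D u = 0 := by
  by_contra hne
  obtain ⟨w, hw⟩ := h
  have hu : u ≠ 0 := by
    rintro rfl
    exact hne (map_zero D)
  have hw0 : w ≠ 0 := by
    rintro rfl
    exact hne (by rw [hw, mul_zero])
  obtain ⟨n, hn, hn'⟩ := exists_deg hD hu
  obtain ⟨m, hm, hm'⟩ := exists_deg hD hw0
  have key := (iter_mul D (n + m) n m u w rfl hn' hm').2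
  rw [← hw, ← Function.iterate_succ_apply, iter_le D hn' (by omega)] at key
  exact mul_ne_zero (choose_ne _ _ (by omega)) (mul_ne_zero hn hm) key.symm

end LND

section gen
variable {R : Type*} [CommRing R] [Algebra ℂ R]

theorem nil_add {D : Derivation ℂ R R} {u v : R} (hu : ∃ n : ℕ, (⇑D)^[n] u = 0)
    (hv : ∃ n : ℕ, (⇑D)^[n] v = 0) : ∃ n : ℕ, (⇑D)^[n] (u + v) = 0 := by
  obtain ⟨n, hn⟩ := hu
  obtain ⟨m, hm⟩ := hv
  exact ⟨n + m, by rw [iter_add, iter_le D hn (by omega), iter_le D hm (by omega), add_zero]⟩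

theorem nil_mul {D : Derivation ℂ R R} {u v : R} (hu : ∃ n : ℕ, (⇑D)^[n] u = 0)
    (hv : ∃ n : ℕ, (⇑D)^[n] v = 0) : ∃ n : ℕ, (⇑D)^[n] (u * v) = 0 := by
  obtain ⟨n, hn⟩ := hu
  obtain ⟨m, hm⟩ := hv
  exact ⟨n + m + 1, (iter_mul D (n + m) n m u v rfl (iter_le D hn (by omega))
    (iter_le D hm (by omega))).1⟩

/-- local nilpotency on a polynomial ring can be checked on the variables -/
theorem LN_of_X {σ : Type*} (D : Derivation ℂ (MvPolynomial σ ℂ) (MvPolynomial σ ℂ))
    (h : ∀ i, ∃ n : ℕ, (⇑D)^[n] (X i) = 0) : LN D := by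
  intro u
  induction u using MvPolynomial.induction_on with
  | C a => exact ⟨1, by simp⟩
  | add p q hp hq => exact nil_add hp hq
  | mul_X p i hp => exact nil_mul hp (h i)

end gen

/-! ### Reduction lemma -/

/-- reduction modulo the first variable -/
noncomputable def red : P4 →ₐ[ℂ] P3 := aeval (Fin.cons 0 X : Fin 4 → P3)

/-- embedding in the last three variables -/
noncomputable def emb : P3 →ₐ[ℂ] P4 := rename Fin.succ

@[simp] theorem red_X0 : red (X 0) = 0 := by simp [red]
@[simp] theorem red_Xs (i : Fin 3) : red (X i.succ) = X i := by simp [red]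
@[simp] theorem red_X1 : red (X 1) = X 0 := red_Xs 0
@[simp] theorem red_X2 : red (X 2) = X 1 := red_Xs 1
@[simp] theorem red_X3 : red (X 3) = X 2 := red_Xs 2
@[simp] theorem emb_X (i : Fin 3) : emb (X i) = X i.succ := by simp [emb]
@[simp] theorem emb_X0 : emb (X 0) = X 1 := emb_X 0
@[simp] theorem emb_X1 : emb (X 1) = X 2 := emb_X 1
@[simp] theorem emb_X2 : emb (X 2) = X 3 := emb_X 2

@[simp] theorem red_emb (u : P3) : red (emb u) = u := by
  have : (red.comp emb) = AlgHom.id ℂ P3 := by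
    apply MvPolynomial.algHom_ext
    intro i
    simp
  exact DFunLike.congr_fun this u

theorem sub_emb_red (u : P4) : (X 0 : P4) ∣ u - emb (red u) := by
  induction u using MvPolynomial.induction_on with
  | C a => simp [red, emb]
  | add p q hp hq =>
    rw [map_add, map_add]
    have : p + q - (emb (red p) + emb (red q)) = (p - emb (red p)) + (q - emb (red q)) := by ring
    rw [this]
    exact dvd_add hp hq
  | mul_X p i hp =>
    rw [map_mul, map_mul]
    refine Fin.cases ?_ (fun j => ?_) i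
    · simp
    · rw [red_Xs, emb_X, ← sub_mul]
      exact Dvd.dvd.mul_right hp _

theorem red_eq_zero_iff (u : P4) : red u = 0 ↔ (X 0 : P4) ∣ u := by
  constructor
  · intro h
    have := sub_emb_red u
    rwa [h, map_zero, sub_zero] at this
  · rintro ⟨w, rfl⟩
    simp

theorem X0_ne : (X 0 : P4) ≠ 0 := MvPolynomial.X_ne_zero 0

/-- extract the maximal power of `X 0` from a family -/
theorem exists_max_pow (l : Fin 3 → P4) (hl : ∃ i, l i ≠ 0) :
    ∃ (e : ℕ) (l' : Fin 3 → P4), (∀ i, l i = X 0 ^ e * l' i) ∧ ∃ i, red (l' i) ≠ 0 := by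
  classical
  obtain ⟨i0, hi0⟩ := hl
  have hfin : FiniteMultiplicity (X 0 : P4) (l i0) := by
    apply FiniteMultiplicity.of_not_isUnit _ hi0
    intro hu
    have h2 := hu.map (red : P4 →ₐ[ℂ] P3)
    rw [red_X0] at h2
    exact not_isUnit_zero h2
  obtain ⟨n, hn⟩ := hfin
  have hP0 : ∀ i, (X 0 : P4) ^ 0 ∣ l i := fun i => by simp
  have hbd : ∀ e, (∀ i, (X 0 : P4) ^ e ∣ l i) → e ≤ n := by
    intro e he
    by_contra hlt
    exact hn ((pow_dvd_pow _ (by omega)).trans (he i0))
  let e := Nat.findGreatest (fun e => ∀ i, (X 0 : P4) ^ e ∣ l i) n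
  have he : ∀ i, (X 0 : P4) ^ e ∣ l i :=
    Nat.findGreatest_spec (P := fun e => ∀ i, (X 0 : P4) ^ e ∣ l i) (Nat.zero_le n) hP0
  choose l' hl' using he
  refine ⟨e, l', hl', ?_⟩
  by_contra hcon
  push Not at hcon
  have h1 : ∀ i, (X 0 : P4) ^ (e + 1) ∣ l i := by
    intro i
    rw [hl' i, pow_succ]
    exact mul_dvd_mul_left _ ((red_eq_zero_iff _).mp (hcon i))
  have h2 := Nat.le_findGreatest (P := fun e => ∀ i, (X 0 : P4) ^ e ∣ l i) (hbd _ h1) h1
  change e + 1 ≤ e at h2
  omega

theorem der_eq_on (D : Derivation ℂ P4 P4) (ι : P4 →ₐ[ℂ] P4) (Δ : Derivation ℂ P4 P4) (α β : P4)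
    (h : ∀ i, α * D (ι (X i)) = β * ι (Δ (X i))) (u : P4) :
    α * D (ι u) = β * ι (Δ u) := by
  induction u using MvPolynomial.induction_on with
  | C a =>
    have h1 : ι (C a) = C a := by
      rw [← MvPolynomial.algebraMap_eq, AlgHom.commutes]
    rw [h1]
    simp
  | add p q hp hq =>
    simp only [map_add, mul_add, hp, hq]
  | mul_X p i hp =>
    simp only [map_mul, Derivation.leibniz, map_add, smul_eq_mul]
    have := h i
    linear_combination (ι p) * this + (ι (X i)) * hp

/-- **Reduction lemma.** -/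
theorem reduction (ι : P4 →ₐ[ℂ] P4) (hinj : Function.Injective ι)
    (hloc : ∀ b : P4, ∃ (N : ℕ) (l : P4), ι (X 0) ^ N * b = ι l)
    (D : Derivation ℂ P4 P4) (hLN : LN D) (hD0 : D (ι (X 0)) = 0)
    (hne : ∃ i : Fin 3, D (ι (X i.succ)) ≠ 0) :
    ∃ (N e : ℕ) (Δ : Derivation ℂ P4 P4) (δ : Derivation ℂ P3 P3), LN δ ∧
      (∃ i, δ (X i) ≠ 0) ∧ (∀ u, red (Δ u) = δ (red u)) ∧
      ∀ u, ι (X 0) ^ N * D (ι u) = ι (X 0) ^ e * ι (Δ u) := by
  have hx0 : ι (X 0) ≠ 0 := by
    intro h
    exact X0_ne (hinj (by rw [h, map_zero]))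
  -- common denominator
  choose N0 l0 h0 using fun i : Fin 3 => hloc (D (ι (X i.succ)))
  let N := ∑ i, N0 i
  have hN : ∀ i, N0 i ≤ N := fun i => Finset.single_le_sum (f := N0) (fun _ _ => Nat.zero_le _)
    (Finset.mem_univ i)
  let l : Fin 3 → P4 := fun i => X 0 ^ (N - N0 i) * l0 i
  have hl : ∀ i, ι (X 0) ^ N * D (ι (X i.succ)) = ι (l i) := by
    intro i
    have : ι (X 0) ^ N = ι (X 0) ^ (N - N0 i) * ι (X 0) ^ (N0 i) := by
      rw [← pow_add]; congr 1; have := hN i; omega
    rw [this, mul_assoc, h0 i]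
    simp [l]
  have hlne : ∃ i, l i ≠ 0 := by
    obtain ⟨i, hi⟩ := hne
    refine ⟨i, fun h => ?_⟩
    have := hl i
    rw [h, map_zero] at this
    exact mul_ne_zero (pow_ne_zero _ hx0) hi this
  obtain ⟨e, l', hl', i1, hi1⟩ := exists_max_pow l hlne
  let Δ : Derivation ℂ P4 P4 := mkDerivation ℂ (Fin.cons 0 l' : Fin 4 → P4)
  let δ : Derivation ℂ P3 P3 := mkDerivation ℂ (fun i => red (l' i))
  have hΔ0 : Δ (X 0) = 0 := by simp [Δ, mkDerivation_X]
  have hΔs : ∀ i : Fin 3, Δ (X i.succ) = l' i := fun i => by simp [Δ, mkDerivation_X]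
  have hδ : ∀ i : Fin 3, δ (X i) = red (l' i) := fun i => by simp [δ, mkDerivation_X]
  have hmain : ∀ u, ι (X 0) ^ N * D (ι u) = ι (X 0) ^ e * ι (Δ u) := by
    apply der_eq_on
    intro i
    refine Fin.cases ?_ (fun j => ?_) i
    · rw [hD0, hΔ0, map_zero, mul_zero, mul_zero]
    · rw [hl j, hΔs j, hl' j, map_mul, map_pow]
  have hred : ∀ u, red (Δ u) = δ (red u) := by
    intro u
    induction u using MvPolynomial.induction_on with
    | C a =>
      have h1 : red (C a) = C a := by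
        rw [← MvPolynomial.algebraMap_eq, AlgHom.commutes]; rfl
      rw [h1]; simp
    | add p q hp hq => simp only [map_add, hp, hq]
    | mul_X p i hp =>
      have hX : red (Δ (X i)) = δ (red (X i)) := by
        refine Fin.cases ?_ (fun j => ?_) i
        · rw [hΔ0]; simp
        · rw [hΔs, red_Xs, hδ]
      simp only [map_mul, Derivation.leibniz, map_add, smul_eq_mul, hp, hX]
  -- iterates
  have hit : ∀ (n : ℕ) (u : P4), ι (X 0) ^ (e * n) * ι ((⇑Δ)^[n] u) =
      ι (X 0) ^ (N * n) * (⇑D)^[n] (ι u) := by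
    intro n
    induction n with
    | zero => intro u; simp
    | succ n ih =>
      intro u
      have hDpow : ∀ (k : ℕ) (w : P4), D (ι (X 0) ^ k * w) = ι (X 0) ^ k * D w := by
        intro k w
        rw [Derivation.leibniz, Derivation.leibniz_pow, hD0]
        simp
      have e1 : (⇑Δ)^[n + 1] u = Δ ((⇑Δ)^[n] u) := Function.iterate_succ_apply' _ _ _
      have e2 : (⇑D)^[n + 1] (ι u) = D ((⇑D)^[n] (ι u)) := Function.iterate_succ_apply' _ _ _
      calc ι (X 0) ^ (e * (n + 1)) * ι ((⇑Δ)^[n + 1] u)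
          = ι (X 0) ^ (e * n) * (ι (X 0) ^ e * ι (Δ ((⇑Δ)^[n] u))) := by
            rw [e1, mul_add, mul_one, pow_add]; ring
        _ = ι (X 0) ^ (e * n) * (ι (X 0) ^ N * D (ι ((⇑Δ)^[n] u))) := by rw [hmain]
        _ = ι (X 0) ^ N * D (ι (X 0) ^ (e * n) * ι ((⇑Δ)^[n] u)) := by rw [hDpow]; ring
        _ = ι (X 0) ^ N * D (ι (X 0) ^ (N * n) * (⇑D)^[n] (ι u)) := by rw [ih]
        _ = ι (X 0) ^ (N * (n + 1)) * (⇑D)^[n + 1] (ι u) := by
            rw [hDpow, e2, mul_add, mul_one, pow_add]; ring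
  have hΔLN : LN Δ := by
    intro u
    obtain ⟨n, hn⟩ := hLN (ι u)
    refine ⟨n, ?_⟩
    have := hit n u
    rw [hn, mul_zero] at this
    have h3 := (mul_eq_zero.mp this).resolve_left (pow_ne_zero _ hx0)
    exact hinj (by rw [h3, map_zero])
  have hδLN : LN δ := by
    intro u
    obtain ⟨n, hn⟩ := hΔLN (emb u)
    refine ⟨n, ?_⟩
    have : ∀ (n : ℕ) (w : P4), red ((⇑Δ)^[n] w) = (⇑δ)^[n] (red w) := by
      intro n
      induction n with
      | zero => intro w; rfl
      | succ n ih => intro w; rw [Function.iterate_succ_apply, ih, hred]; rfl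
    have h4 := this n (emb u)
    rw [hn, map_zero, red_emb] at h4
    exact h4.symm
  exact ⟨N, e, Δ, δ, hδLN, ⟨i1, by rw [hδ]; exact hi1⟩, hred, hmain⟩

/-- criterion for injectivity -/
theorem inj_of_points (ι : P4 →ₐ[ℂ] P4)
    (h : ∀ P : Fin 4 → ℂ, P 0 ≠ 0 → ∃ P' : Fin 4 → ℂ, ∀ i, eval P' (ι (X i)) = P i) :
    Function.Injective ι := by
  rw [injective_iff_map_eq_zero]
  intro u hu
  have h1 : (X 0 : P4) * u = 0 := by
    apply MvPolynomial.funext
    intro P
    rw [map_mul, map_zero, eval_X]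
    by_cases hP : P 0 = 0
    · rw [hP, zero_mul]
    · obtain ⟨P', hP'⟩ := h P hP
      have h2 : ((aeval P' : P4 →ₐ[ℂ] ℂ).comp ι) = (aeval P : P4 →ₐ[ℂ] ℂ) := by
        apply MvPolynomial.algHom_ext
        intro i
        have := hP' i
        simpa [MvPolynomial.aeval_eq_eval] using this
      have h3 := DFunLike.congr_fun h2 u
      rw [AlgHom.comp_apply, hu, map_zero] at h3
      have h4 : eval P u = 0 := by
        rw [← MvPolynomial.aeval_eq_eval]; exact h3.symm
      rw [h4, mul_zero]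
  exact (mul_eq_zero.mp h1).resolve_left X0_ne

/-- closure: elements `b` with `x^N b` in the image of `ι` -/
def Loc (ι : P4 →ₐ[ℂ] P4) (b : P4) : Prop := ∃ (N : ℕ) (l : P4), ι (X 0) ^ N * b = ι l

theorem Loc.add {ι : P4 →ₐ[ℂ] P4} {b c : P4} (hb : Loc ι b) (hc : Loc ι c) : Loc ι (b + c) := by
  obtain ⟨N, l, hl⟩ := hb
  obtain ⟨M, m, hm⟩ := hc
  refine ⟨N + M, X 0 ^ M * l + X 0 ^ N * m, ?_⟩
  rw [map_add, map_mul, map_mul, ← hl, ← hm, map_pow, map_pow]
  ring

theorem Loc.mul {ι : P4 →ₐ[ℂ] P4} {b c : P4} (hb : Loc ι b) (hc : Loc ι c) : Loc ι (b * c) := by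
  obtain ⟨N, l, hl⟩ := hb
  obtain ⟨M, m, hm⟩ := hc
  refine ⟨N + M, l * m, ?_⟩
  rw [map_mul, ← hl, ← hm]
  ring

theorem Loc.img {ι : P4 →ₐ[ℂ] P4} (l : P4) : Loc ι (ι l) := ⟨0, l, by simp⟩

theorem Loc.neg {ι : P4 →ₐ[ℂ] P4} {b : P4} (hb : Loc ι b) : Loc ι (-b) := by
  obtain ⟨N, l, hl⟩ := hb
  exact ⟨N, -l, by rw [map_neg, ← hl]; ring⟩

theorem Loc.sub {ι : P4 →ₐ[ℂ] P4} {b c : P4} (hb : Loc ι b) (hc : Loc ι c) : Loc ι (b - c) := by
  rw [sub_eq_add_neg]; exact hb.add hc.neg

theorem Loc.pow {ι : P4 →ₐ[ℂ] P4} {b : P4} (hb : Loc ι b) (n : ℕ) : Loc ι (b ^ n) := by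
  induction n with
  | zero => exact ⟨0, 1, by simp⟩
  | succ n ih => rw [pow_succ]; exact ih.mul hb

theorem Loc.one {ι : P4 →ₐ[ℂ] P4} : Loc ι 1 := ⟨0, 1, by simp⟩

theorem Loc.div {ι : P4 →ₐ[ℂ] P4} {b : P4} (hb : Loc ι (ι (X 0) * b)) : Loc ι b := by
  obtain ⟨N, l, hl⟩ := hb
  exact ⟨N + 1, l, by rw [← hl]; ring⟩

theorem Loc.all {ι : P4 →ₐ[ℂ] P4} (h : ∀ i, Loc ι (X i)) (b : P4) : Loc ι b := by
  induction b using MvPolynomial.induction_on with
  | C a => exact ⟨0, C a, by
      rw [← MvPolynomial.algebraMap_eq, AlgHom.commutes]; simp⟩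
  | add p q hp hq => exact hp.add hq
  | mul_X p i hp => exact hp.mul (h i)

end Crest.Agent.R268
end

-- ▼ part R268/Recover
section

/-! Recovering `g, F, x, ρ, k, b` from the inverse formulas. -/

set_option autoImplicit false

namespace Crest.Agent.R268

section
variable {R : Type*} [CommRing R] {x F g ρ a k b : R}

/-- The core lemma: if `F = x a + g ρ`, `g = 1 + ρ k + x b` and
`k (1 - a g) + g^2 b = -a (a F + ρ)`, then with `p = a F + ρ`, `q = x - g F`,
`r = a^2 k - (1 + a g) b` all the functions take the expected values. -/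
theorem recover_gg (hF : F = x * a + g * ρ) (hg : g = 1 + ρ * k + x * b)
    (hk : k * (1 - a * g) + g ^ 2 * b = -a * (a * F + ρ)) :
    gg a (a * F + ρ) (x - g * F) (a ^ 2 * k - (1 + a * g) * b) = g := by
  subst hF
  simp only [gg]
  linear_combination (-(a * (x * a + g * ρ) + ρ)) * hk - hg

theorem recover_FF (hF : F = x * a + g * ρ) (hg : g = 1 + ρ * k + x * b)
    (hk : k * (1 - a * g) + g ^ 2 * b = -a * (a * F + ρ)) :
    FF a (a * F + ρ) (x - g * F) (a ^ 2 * k - (1 + a * g) * b) = F := by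
  rw [FF, recover_gg hF hg hk]
  linear_combination -hF

theorem recover_xx (hF : F = x * a + g * ρ) (hg : g = 1 + ρ * k + x * b)
    (hk : k * (1 - a * g) + g ^ 2 * b = -a * (a * F + ρ)) :
    xx a (a * F + ρ) (x - g * F) (a ^ 2 * k - (1 + a * g) * b) = x := by
  rw [xx, recover_FF hF hg hk, recover_gg hF hg hk]
  ring

theorem recover_rho (hF : F = x * a + g * ρ) (hg : g = 1 + ρ * k + x * b)
    (hk : k * (1 - a * g) + g ^ 2 * b = -a * (a * F + ρ)) :
    rho a (a * F + ρ) (x - g * F) (a ^ 2 * k - (1 + a * g) * b) = ρ := by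
  rw [rho, recover_gg hF hg hk]
  linear_combination a * hF

theorem recover_kk (hF : F = x * a + g * ρ) (hg : g = 1 + ρ * k + x * b)
    (hk : k * (1 - a * g) + g ^ 2 * b = -a * (a * F + ρ)) :
    kk a (a * F + ρ) (x - g * F) (a ^ 2 * k - (1 + a * g) * b) = k := by
  rw [kk, recover_gg hF hg hk]
  linear_combination -(1 + a * g) * hk


theorem recover_tt (hF : F = x * a + g * ρ) (hg : g = 1 + ρ * k + x * b)
    (hk : k * (1 - a * g) + g ^ 2 * b = -a * (a * F + ρ)) :
    tt a (a * F + ρ) (x - g * F) (a ^ 2 * k - (1 + a * g) * b) = g * k - x * a ^ 2 := by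
  rw [tt, recover_gg hF hg hk, recover_kk hF hg hk, recover_xx hF hg hk]

theorem recover_cc (hF : F = x * a + g * ρ) (hg : g = 1 + ρ * k + x * b)
    (hk : k * (1 - a * g) + g ^ 2 * b = -a * (a * F + ρ)) :
    cc a (a * F + ρ) (x - g * F) (a ^ 2 * k - (1 + a * g) * b) = ρ + (g * k - x * a ^ 2) := by
  rw [cc, recover_rho hF hg hk, recover_tt hF hg hk]


end

end Crest.Agent.R268
end

-- ▼ part R268/NonCoord
section

/-! The polynomial `fB` is not a coordinate. -/

set_option autoImplicit false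

namespace Crest.Agent.R268

open MvPolynomial

/-- the special relation `Q = F g c - F^2 - g^3 (g-1)` in `ℂ[F,g,c]` -/
noncomputable def Qb : P3 := X 0 * X 1 * X 2 - X 0 ^ 2 - X 1 ^ 3 * (X 1 - 1)

/-- second embedding: `c̃ ↦ y c` -/
noncomputable def iota2 : P4 →ₐ[ℂ] P4 := aeval ![X 0, X 1, X 2, X 0 * X 3]

@[simp] theorem iota2_X0 : iota2 (X 0) = X 0 := by simp [iota2]
@[simp] theorem iota2_X1 : iota2 (X 1) = X 1 := by simp [iota2]
@[simp] theorem iota2_X2 : iota2 (X 2) = X 2 := by simp [iota2]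
@[simp] theorem iota2_X3 : iota2 (X 3) = X 0 * X 3 := by simp [iota2]

theorem iota2_inj : Function.Injective iota2 := by
  apply inj_of_points
  intro P hP
  refine ⟨![P 0, P 1, P 2, P 3 / P 0], ?_⟩
  intro i
  fin_cases i
  · simp
  · simp
  · simp
  · simp [mul_div_cancel₀ _ hP]

theorem iota2_loc (b : P4) : Loc iota2 b := by
  apply Loc.all
  intro i
  fin_cases i
  · exact ⟨0, X 0, by simp⟩
  · exact ⟨0, X 1, by simp⟩
  · exact ⟨0, X 2, by simp⟩
  · exact ⟨1, X 3, by simp⟩

theorem no_LND_kills_Q (δ : Derivation ℂ P3 P3) (hLN : LN δ) (hne : ∃ i, δ (X i) ≠ 0) :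
    δ Qb ≠ 0 := by
  intro hQ
  let D₂ : Derivation ℂ P4 P4 :=
    mkDerivation ℂ (Fin.cons 0 (fun i => emb (δ (X i))) : Fin 4 → P4)
  have hD0 : D₂ (X 0) = 0 := by simp [D₂, mkDerivation_X]
  have hDs : ∀ i : Fin 3, D₂ (X i.succ) = emb (δ (X i)) := fun i => by
    simp [D₂, mkDerivation_X]
  have hDe : ∀ u : P3, D₂ (emb u) = emb (δ u) := by
    intro u
    induction u using MvPolynomial.induction_on with
    | C a =>
      have h1 : emb (C a) = C a := by simp [emb]
      rw [h1]; simp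
    | add p q hp hq => simp only [map_add, hp, hq]
    | mul_X p i hp =>
      have h1 : D₂ (emb (X i)) = emb (δ (X i)) := by rw [emb_X, hDs]
      simp only [map_mul, Derivation.leibniz, map_add, smul_eq_mul, hp, h1]
  have hDi : ∀ (n : ℕ) (u : P3), (⇑D₂)^[n] (emb u) = emb ((⇑δ)^[n] u) := by
    intro n
    induction n with
    | zero => intro u; rfl
    | succ n ih => intro u; rw [Function.iterate_succ_apply, hDe, ih]; rfl
  have hLN2 : LN D₂ := by
    apply LN_of_X
    intro i
    refine Fin.cases ?_ (fun j => ?_) i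
    · exact ⟨1, hD0⟩
    · obtain ⟨n, hn⟩ := hLN (X j)
      exact ⟨n, by rw [← emb_X, hDi, hn, map_zero]⟩
  have hemb : Function.Injective emb := by
    intro u v huv
    rw [← red_emb u, huv, red_emb]
  have hne2 : ∃ i : Fin 3, D₂ (iota2 (X i.succ)) ≠ 0 := by
    obtain ⟨i, hi⟩ := hne
    refine ⟨i, ?_⟩
    have h0 : emb (δ (X i)) ≠ 0 := fun h => hi (hemb (by rw [h, map_zero]))
    fin_cases i
    · change D₂ (iota2 (X 1)) ≠ 0
      rw [iota2_X1]
      exact (hDs 0).trans_ne h0
    · change D₂ (iota2 (X 2)) ≠ 0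
      rw [iota2_X2]
      exact (hDs 1).trans_ne h0
    · change D₂ (iota2 (X 3)) ≠ 0
      rw [iota2_X3, Derivation.leibniz, hD0, smul_zero, add_zero, smul_eq_mul]
      exact mul_ne_zero X0_ne ((hDs 2).trans_ne h0)
  obtain ⟨N, e, Δ, δ', hLN', ⟨i, hi⟩, hred, hmain⟩ :=
    reduction iota2 iota2_inj iota2_loc D₂ hLN2 (by rw [iota2_X0]; exact hD0) hne2
  -- the element Q₂
  let Q₂ : P4 := X 1 * X 2 * X 3 - X 0 * (X 1 ^ 2 + X 2 ^ 3 * (X 2 - 1))
  have hQ₂ : iota2 Q₂ = X 0 * emb Qb := by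
    simp only [Q₂, Qb, map_sub, map_mul, map_add, map_pow, map_one, iota2_X0, iota2_X1, iota2_X2,
      iota2_X3, emb_X0, emb_X1, emb_X2]
    ring
  have h1 : D₂ (iota2 Q₂) = 0 := by
    rw [hQ₂, Derivation.leibniz, hD0, hDe, hQ, map_zero]
    simp
  have h2 := hmain Q₂
  rw [h1, mul_zero, iota2_X0] at h2
  have h3 : Δ Q₂ = 0 := by
    have := (mul_eq_zero.mp h2.symm).resolve_left (pow_ne_zero _ X0_ne)
    exact iota2_inj (by rw [this, map_zero])
  have h4 : δ' (X 0 * X 1 * X 2) = 0 := by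
    have h5 := hred Q₂
    rw [h3, map_zero] at h5
    have h6 : red Q₂ = X 0 * X 1 * X 2 := by
      simp [Q₂]
    rw [h6] at h5
    exact h5.symm
  have hX : ∀ i : Fin 3, (X i : P3) ≠ 0 := fun i => MvPolynomial.X_ne_zero i
  have h01 : δ' (X 0 * X 1) = 0 :=
    ker_of_mul hLN' (mul_ne_zero (hX 0) (hX 1)) (hX 2) h4
  have h2' : δ' (X 2) = 0 :=
    ker_of_mul' hLN' (mul_ne_zero (hX 0) (hX 1)) (hX 2) h4
  have h0' : δ' (X 0) = 0 := ker_of_mul hLN' (hX 0) (hX 1) h01
  have h1' : δ' (X 1) = 0 := ker_of_mul' hLN' (hX 0) (hX 1) h01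
  fin_cases i
  · exact hi h0'
  · exact hi h1'
  · exact hi h2'

/-! ### The main embedding -/

noncomputable def bF : P4 := FF (X 0) (X 1) (X 2) (X 3)
noncomputable def bg : P4 := gg (X 0) (X 1) (X 2) (X 3)
noncomputable def bc : P4 := cc (X 0) (X 1) (X 2) (X 3)
noncomputable def bt : P4 := tt (X 0) (X 1) (X 2) (X 3)
noncomputable def brho : P4 := rho (X 0) (X 1) (X 2) (X 3)
noncomputable def bk : P4 := kk (X 0) (X 1) (X 2) (X 3)
noncomputable def bbb : P4 := bb (X 0) (X 1) (X 2) (X 3)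

/-- `(x, F, g, c)` -/
noncomputable def iota : P4 →ₐ[ℂ] P4 := aeval ![fB, bF, bg, bc]

@[simp] theorem iota_X0 : iota (X 0) = fB := by simp [iota]
@[simp] theorem iota_X1 : iota (X 1) = bF := by simp [iota]
@[simp] theorem iota_X2 : iota (X 2) = bg := by simp [iota]
@[simp] theorem iota_X3 : iota (X 3) = bc := by simp [iota]

theorem ev_gg (P : Fin 4 → ℂ) : eval P bg = gg (P 0) (P 1) (P 2) (P 3) := by
  simp [bg, gg]
theorem ev_FF (P : Fin 4 → ℂ) : eval P bF = FF (P 0) (P 1) (P 2) (P 3) := by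
  simp [bF, FF, gg]
theorem ev_xx (P : Fin 4 → ℂ) : eval P fB = xx (P 0) (P 1) (P 2) (P 3) := by
  simp [fB, xx, FF, gg]
theorem ev_cc (P : Fin 4 → ℂ) : eval P bc = cc (P 0) (P 1) (P 2) (P 3) := by
  simp [bc, cc, rho, tt, kk, xx, FF, gg]


/-- points with `x ≠ 0`: every value of `(x,F,g,c)` is attained -/
theorem exists_point (x F g c : ℂ) (hx : x ≠ 0) :
    ∃ a p q r : ℂ, xx a p q r = x ∧ FF a p q r = F ∧ gg a p q r = g ∧ cc a p q r = c := by
  set t := (F * g * c - F ^ 2 - g ^ 3 * (g - 1)) / x with ht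
  set ρ := c - t with hρ
  set a := (F - g * ρ) / x with ha
  set a2 := (ρ * t - g * (g - 1)) / x with ha2
  set k := (t - ρ) * a + g * a2 with hk
  set b := (g - 1 - ρ * k) / x with hb
  have e1 : x * t = F * g * c - F ^ 2 - g ^ 3 * (g - 1) := by rw [ht]; field_simp
  have e2 : x * a = F - g * ρ := by rw [ha]; field_simp
  have e3 : x * a2 = ρ * t - g * (g - 1) := by rw [ha2]; field_simp
  have e5 : x * b = g - 1 - ρ * k := by rw [hb]; field_simp
  have hF : F = x * a + g * ρ := by linear_combination -e2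
  have hc : c = ρ + t := by rw [hρ]; ring
  clear_value t ρ a a2 k b
  have e6 : t = g * k - x * a ^ 2 := by
    apply mul_left_cancel₀ hx
    rw [e1, hk, hc, hF]
    linear_combination (-g ^ 2) * e3
  have e7 : a2 = -(g * b) - ρ * a ^ 2 := by
    apply mul_left_cancel₀ hx
    linear_combination e3 + g * e5 + ρ * e6
  have hg : g = 1 + ρ * k + x * b := by linear_combination -e5
  have hkk : k * (1 - a * g) + g ^ 2 * b = -a * (a * F + ρ) := by
    rw [e7] at hk
    linear_combination hk + a * e6 + a ^ 2 * hF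
  refine ⟨a, a * F + ρ, x - g * F, a ^ 2 * k - (1 + a * g) * b, recover_xx hF hg hkk,
    recover_FF hF hg hkk, recover_gg hF hg hkk, ?_⟩
  rw [recover_cc hF hg hkk, hc, ← e6]

theorem iota_inj : Function.Injective iota := by
  apply inj_of_points
  intro P hP
  obtain ⟨a, p, q, r, h0, h1, h2, h3⟩ := exists_point (P 0) (P 1) (P 2) (P 3) hP
  refine ⟨![a, p, q, r], ?_⟩
  intro i
  fin_cases i
  · simpa [ev_xx] using h0
  · simpa [ev_FF] using h1
  · simpa [ev_gg] using h2
  · simpa [ev_cc] using h3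

theorem iota_loc (b : P4) : Loc iota b := by
  have hx : Loc iota fB := by rw [← iota_X0]; exact Loc.img _
  have hF : Loc iota bF := by rw [← iota_X1]; exact Loc.img _
  have hg : Loc iota bg := by rw [← iota_X2]; exact Loc.img _
  have hc : Loc iota bc := by rw [← iota_X3]; exact Loc.img _
  have ht : Loc iota bt := by
    apply Loc.div
    rw [iota_X0]
    have : fB * bt = bF * bg * bc - bF ^ 2 - bg ^ 3 * (bg - 1) := id_xt _ _ _ _
    rw [this]
    exact (((hF.mul hg).mul hc).sub (hF.pow 2)).sub ((hg.pow 3).mul (hg.sub Loc.one))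
  have hρ : Loc iota brho := by
    have : brho = bc - bt := by
      simp only [brho, bc, bt, cc]; ring
    rw [this]
    exact hc.sub ht
  have ha : Loc iota (X 0) := by
    apply Loc.div
    rw [iota_X0]
    have : fB * X 0 = bF - bg * brho := by
      have := id_F (X 0 : P4) (X 1) (X 2) (X 3)
      simp only [fB, bF, bg, brho]
      linear_combination -this
    rw [this]
    exact hF.sub (hg.mul hρ)
  have ha2 : Loc iota (bg * bbb + brho * X 0 ^ 2) := by
    apply Loc.div
    rw [iota_X0]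
    have : fB * (bg * bbb + brho * X 0 ^ 2) = bg * (bg - 1) - brho * bt := by
      have := id_rt (X 0 : P4) (X 1) (X 2) (X 3)
      simp only [fB, bbb, bt, bg, brho]
      linear_combination this
    rw [this]
    exact (hg.mul (hg.sub Loc.one)).sub (hρ.mul ht)
  have hk : Loc iota bk := by
    have : bk = X 0 * (bt - brho) - bg * (bg * bbb + brho * X 0 ^ 2) := by
      have := id_k (X 0 : P4) (X 1) (X 2) (X 3)
      simp only [bk, bbb, bt, bg, brho]
      linear_combination this
    rw [this]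
    exact (ha.mul (ht.sub hρ)).sub (hg.mul ha2)
  have hb : Loc iota bbb := by
    apply Loc.div
    rw [iota_X0]
    have : fB * bbb = bg - 1 - brho * bk := by
      have := id_g (X 0 : P4) (X 1) (X 2) (X 3)
      simp only [fB, bk, bbb, bg, brho]
      linear_combination -this
    rw [this]
    exact (hg.sub Loc.one).sub (hρ.mul hk)
  apply Loc.all
  intro i
  fin_cases i
  · exact ha
  · change Loc iota (X 1)
    rw [id_p (X 0 : P4) (X 1) (X 2) (X 3)]
    exact (ha.mul hF).add hρ
  · change Loc iota (X 2)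
    rw [id_q (X 0 : P4) (X 1) (X 2) (X 3)]
    exact hx.sub (hg.mul hF)
  · change Loc iota (X 3)
    rw [id_r (X 0 : P4) (X 1) (X 2) (X 3)]
    exact ((ha.pow 2).mul hk).sub ((Loc.one.add (ha.mul hg)).mul hb)


/-! ### The contraction of `(x)` to `ℂ[F,g,c]` is `(Q)` -/

abbrev P2 := MvPolynomial (Fin 2) ℂ

/-- `ℂ[F,g] → ℂ[F,g,c]` -/
noncomputable def emb2 : P2 →ₐ[ℂ] P3 := aeval ![X 0, X 1]

@[simp] theorem emb2_X0 : emb2 (X 0) = X 0 := by simp [emb2]
@[simp] theorem emb2_X1 : emb2 (X 1) = X 1 := by simp [emb2]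

/-- `(F g)^N v = Q u + w(F,g)` -/
theorem exists_division (v : P3) : ∃ (N : ℕ) (u : P3) (w : P2),
    (X 0 * X 1) ^ N * v = Qb * u + emb2 w := by
  induction v using MvPolynomial.induction_on with
  | C a =>
    refine ⟨0, 0, C a, ?_⟩
    have : emb2 (C a) = C a := by
      rw [← MvPolynomial.algebraMap_eq, AlgHom.commutes]; rfl
    rw [this]; simp
  | add p q hp hq =>
    obtain ⟨N, u, w, h⟩ := hp
    obtain ⟨M, u', w', h'⟩ := hq
    refine ⟨N + M, (X 0 * X 1) ^ M * u + (X 0 * X 1) ^ N * u',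
      (X 0 * X 1) ^ M * w + (X 0 * X 1) ^ N * w', ?_⟩
    simp only [map_add, map_mul, map_pow, emb2_X0, emb2_X1]
    rw [pow_add]
    linear_combination (X 0 * X 1) ^ M * h + (X 0 * X 1) ^ N * h'
  | mul_X p i hp =>
    obtain ⟨N, u, w, h⟩ := hp
    have hi : ∃ (M : ℕ) (u' : P3) (w' : P2), (X 0 * X 1) ^ M * X i = Qb * u' + emb2 w' := by
      fin_cases i
      · exact ⟨0, 0, X 0, by simp⟩
      · exact ⟨0, 0, X 1, by simp⟩
      · refine ⟨1, 1, X 0 ^ 2 + X 1 ^ 3 * (X 1 - 1), ?_⟩
        simp only [map_add, map_mul, map_pow, map_sub, map_one, emb2_X0, emb2_X1, Qb]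
        change (X 0 * X 1) ^ 1 * (X 2 : P3) = _
        ring
    obtain ⟨M, u', w', h'⟩ := hi
    refine ⟨N + M, Qb * u * u' + u * emb2 w' + emb2 w * u', w * w', ?_⟩
    rw [map_mul, pow_add]
    linear_combination ((X 0 * X 1) ^ M * X i) * h + (Qb * u + emb2 w) * h'

theorem dvd_cancel {π Q v : P3} (hπ : Prime π) (hQ : ¬ π ∣ Q) (N : ℕ) (h : Q ∣ π ^ N * v) :
    Q ∣ v := by
  induction N with
  | zero => simpa using h
  | succ N ih =>
    apply ih
    obtain ⟨u, hu⟩ := h
    have h1 : π ∣ Q * u := ⟨π ^ N * v, by rw [← hu]; ring⟩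
    obtain ⟨u', rfl⟩ := (hπ.dvd_or_dvd h1).resolve_left hQ
    refine ⟨u', ?_⟩
    apply mul_left_cancel₀ hπ.ne_zero
    linear_combination hu

theorem not_X0_dvd_Qb : ¬ (X 0 : P3) ∣ Qb := by
  rintro ⟨u, hu⟩
  have := congrArg (eval ![(0 : ℂ), 2, 0]) hu
  simp [Qb] at this
  norm_num at this

theorem not_X1_dvd_Qb : ¬ (X 1 : P3) ∣ Qb := by
  rintro ⟨u, hu⟩
  have := congrArg (eval ![(1 : ℂ), 0, 0]) hu
  simp [Qb] at this

theorem iota_emb_Qb : iota (emb Qb) = fB * bt := by
  have := id_xt (X 0 : P4) (X 1) (X 2) (X 3)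
  simp only [Qb, map_sub, map_mul, map_pow, map_one, emb_X0, emb_X1, emb_X2, iota_X1, iota_X2,
    iota_X3]
  simp only [fB, bt, bF, bg, bc]
  linear_combination -this

theorem Qb_dvd (v : P3) (h : fB ∣ iota (emb v)) : Qb ∣ v := by
  obtain ⟨N, u, w, hN⟩ := exists_division v
  have h1 : fB ∣ iota (emb (emb2 w)) := by
    have e : emb2 w = (X 0 * X 1) ^ N * v - Qb * u := by rw [hN]; ring
    rw [e, map_sub, map_sub, map_mul, map_mul, map_mul, map_mul, iota_emb_Qb]
    exact dvd_sub (h.mul_left _) (by rw [mul_assoc]; exact dvd_mul_right _ _)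
  have h2 : w = 0 := by
    have hw : (X 0 * X 1 : P2) * w = 0 := by
      apply MvPolynomial.funext
      intro P
      rw [map_mul, map_mul, map_zero, eval_X, eval_X]
      by_cases hF : P 0 = 0
      · rw [hF]; ring
      by_cases hg : P 1 = 0
      · rw [hg]; ring
      set P' : Fin 4 → ℂ := ![0, P 0 / P 1, -(P 1 * P 0), (P 1 - 1) / (P 0 * P 1)] with hP'
      have hgg : eval P' bg = P 1 := by
        rw [ev_gg]
        simp only [hP', gg, Matrix.cons_val]
        field_simp
        ring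
      have hgg' : gg (P' 0) (P' 1) (P' 2) (P' 3) = P 1 := by rw [← ev_gg, hgg]
      have hFF : eval P' bF = P 0 := by
        rw [ev_FF, FF, hgg']
        simp only [hP', Matrix.cons_val]
        field_simp
        ring
      have hFF' : FF (P' 0) (P' 1) (P' 2) (P' 3) = P 0 := by rw [← ev_FF, hFF]
      have hxx : eval P' fB = 0 := by
        rw [ev_xx, xx, hgg', hFF']
        simp only [hP', Matrix.cons_val]
        ring
      obtain ⟨z, hz⟩ := h1
      have h3 : eval P' (iota (emb (emb2 w))) = 0 := by rw [hz, map_mul, hxx, zero_mul]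
      have h4 : ((((aeval P' : P4 →ₐ[ℂ] ℂ).comp iota).comp emb).comp emb2) =
          (aeval P : P2 →ₐ[ℂ] ℂ) := by
        apply MvPolynomial.algHom_ext
        intro i
        fin_cases i
        · simp [MvPolynomial.aeval_eq_eval, hFF]
        · simp [MvPolynomial.aeval_eq_eval, hgg]
      have h5 := DFunLike.congr_fun h4 w
      simp only [AlgHom.comp_apply, MvPolynomial.aeval_eq_eval] at h5
      have h6 : eval P w = 0 := by
        rw [← h5]; exact h3
      rw [h6, mul_zero]
    have hne : (X 0 * X 1 : P2) ≠ 0 := mul_ne_zero (X_ne_zero 0) (X_ne_zero 1)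
    exact (mul_eq_zero.mp hw).resolve_left hne
  rw [h2, map_zero, add_zero, mul_pow, mul_assoc] at hN
  exact dvd_cancel (X_prime (i := (1 : Fin 3))) not_X1_dvd_Qb N
    (dvd_cancel (X_prime (i := (0 : Fin 3))) not_X0_dvd_Qb N ⟨u, hN⟩)

/-- if `ι l ∈ (x)` then `Q` divides the reduction of `l` -/
theorem Qb_dvd_red (l : P4) (h : fB ∣ iota l) : Qb ∣ red l := by
  apply Qb_dvd
  obtain ⟨z, hz⟩ := sub_emb_red l
  have : iota (emb (red l)) = iota l - fB * iota z := by
    have e : emb (red l) = l - X 0 * z := by rw [← hz]; ring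
    rw [e, map_sub, map_mul, iota_X0]
  rw [this]
  exact dvd_sub h (dvd_mul_right _ _)

/-- **Rigidity**: every locally nilpotent derivation killing `x` maps `F` into `(x)`. -/
theorem rigid (D : Derivation ℂ P4 P4) (hLN : LN D) (hD0 : D fB = 0) : fB ∣ D bF := by
  by_cases hne : ∃ i : Fin 3, D (iota (X i.succ)) ≠ 0
  · obtain ⟨N, e, Δ, δ, hδ, hδne, hred, hmain⟩ :=
      reduction iota iota_inj iota_loc D hLN (by rw [iota_X0]; exact hD0) hne
    have hfne : fB ≠ 0 := by
      intro h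
      exact X0_ne (iota_inj (by rw [iota_X0, h, map_zero]))
    rcases Nat.lt_or_ge N e with hlt | hge
    · -- `D F = x^(e-N) ι (Δ F)`
      have h1 := hmain (X 1)
      rw [iota_X0, iota_X1] at h1
      obtain ⟨m, rfl⟩ := Nat.exists_eq_add_of_lt hlt
      have h2 : D bF = fB ^ (m + 1) * iota (Δ (X 1)) := by
        apply mul_left_cancel₀ (pow_ne_zero N hfne)
        rw [h1]; ring
      rw [h2, pow_succ']
      exact ⟨fB ^ m * iota (Δ (X 1)), by ring⟩
    · exfalso
      obtain ⟨m, rfl⟩ := Nat.exists_eq_add_of_le hge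
      have h1 := hmain (emb Qb)
      have h2 : iota (Δ (emb Qb)) = fB ^ m * D (fB * bt) := by
        rw [iota_X0, iota_emb_Qb] at h1
        apply mul_left_cancel₀ (pow_ne_zero e hfne)
        rw [← h1]; ring
      have h3 : fB ∣ iota (Δ (emb Qb)) := by
        rw [h2, Derivation.leibniz, hD0, smul_zero, add_zero, smul_eq_mul]
        exact ⟨fB ^ m * D bt, by ring⟩
      have h4 := Qb_dvd_red _ h3
      rw [hred, red_emb] at h4
      exact no_LND_kills_Q δ hδ hδne (ker_of_dvd hδ h4)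
  · push Not at hne
    have := hne 0
    have h1 : D bF = 0 := by
      rw [← iota_X1]; exact this
    rw [h1]
    exact dvd_zero _

/-- all partial derivatives vanish: constant -/
theorem const_of_pderiv (v : P3) (h : ∀ i, pderiv i v = 0) : v = C (coeff 0 v) := by
  ext m
  rw [coeff_C]
  split_ifs with hm
  · rw [hm]
  · have : ∃ i, m i ≠ 0 := by
      by_contra hcon
      push Not at hcon
      exact hm (by ext i; simp [hcon i])
    obtain ⟨i, hi⟩ := this
    have h1 : coeff (m - Finsupp.single i 1) (pderiv i v) = 0 := by rw [h i, coeff_zero]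
    rw [coeff_pderiv] at h1
    have h2 : m - Finsupp.single i 1 + Finsupp.single i 1 = m := by
      ext j
      by_cases hj : j = i
      · subst hj
        simp
        omega
      · simp [Finsupp.single_eq_of_ne hj]
    rw [h2] at h1
    rcases mul_eq_zero.mp h1 with h3 | h3
    · exact h3
    · exfalso
      exact Nat.cast_add_one_ne_zero _ h3

theorem red_pderiv (i : Fin 3) (u : P4) : red (pderiv i.succ u) = pderiv i (red u) := by
  induction u using MvPolynomial.induction_on with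
  | C a =>
    have h1 : red (C a) = C a := by
      rw [← MvPolynomial.algebraMap_eq, AlgHom.commutes]; rfl
    rw [h1]; simp
  | add p q hp hq => simp only [map_add, hp, hq]
  | mul_X p j hp =>
    have hX : red (pderiv i.succ (X j)) = pderiv i (red (X j)) := by
      refine Fin.cases ?_ (fun l => ?_) j
      · rw [pderiv_X_of_ne (Fin.succ_ne_zero i).symm, red_X0, map_zero, map_zero]
      · rw [red_Xs]
        by_cases hl : l = i
        · subst hl; rw [pderiv_X_self, pderiv_X_self, map_one]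
        · rw [pderiv_X_of_ne hl, pderiv_X_of_ne (fun h => hl (Fin.succ_injective _ h)), map_zero]
    simp only [map_mul, Derivation.leibniz, map_add, smul_eq_mul, hp, hX]

/-- T1: `fB` is not a coordinate. -/
theorem not_coord : ¬ ∃ τ : P4 ≃ₐ[ℂ] P4, τ fB = X 0 := by
  rintro ⟨τ, hτ⟩
  -- conjugated partial derivatives
  have key : ∀ i : Fin 3, (X 0 : P4) ∣ pderiv i.succ (τ bF) := by
    intro i
    let D : Derivation ℂ P4 P4 := Derivation.mk'
      (τ.symm.toLinearMap ∘ₗ (pderiv i.succ : Derivation ℂ P4 P4).toLinearMap ∘ₗ τ.toLinearMap)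
      (by
        intro u v
        simp [Derivation.leibniz])
    have hDapp : ∀ u, D u = τ.symm (pderiv i.succ (τ u)) := fun u => rfl
    have hLN : LN D := by
      have hit : ∀ (n : ℕ) (u : P4), τ ((⇑D)^[n] u) = (⇑(pderiv i.succ : Derivation ℂ P4 P4))^[n] (τ u) := by
        intro n
        induction n with
        | zero => intro u; rfl
        | succ n ih =>
          intro u
          rw [Function.iterate_succ_apply, ih, hDapp, AlgEquiv.apply_symm_apply]; rfl
      have hp : LN (pderiv i.succ : Derivation ℂ P4 P4) := by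
        apply LN_of_X
        intro j
        refine ⟨2, ?_⟩
        rw [Function.iterate_succ_apply, Function.iterate_one, pderiv_X]
        by_cases hij : j = i.succ
        · subst hij; simp
        · rw [Pi.single_eq_of_ne hij]; simp
      intro u
      obtain ⟨n, hn⟩ := hp (τ u)
      refine ⟨n, ?_⟩
      rw [← hit] at hn
      exact τ.injective (by rw [hn, map_zero])
    have hD0 : D fB = 0 := by
      rw [hDapp, hτ, pderiv_X_of_ne (by exact (Fin.succ_ne_zero i).symm), map_zero]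
    obtain ⟨z, hz⟩ := rigid D hLN hD0
    refine ⟨τ z, ?_⟩
    rw [← hτ, ← map_mul, ← hz, hDapp, AlgEquiv.apply_symm_apply]
  have hconst : ∀ i : Fin 3, pderiv i (red (τ bF)) = 0 := by
    intro i
    rw [← red_pderiv]
    exact (red_eq_zero_iff _).mpr (key i)
  have h1 := const_of_pderiv _ hconst
  obtain ⟨h, hh⟩ := sub_emb_red (τ bF)
  set a0 := coeff 0 (red (τ bF)) with ha0
  have h2 : τ bF = C a0 + X 0 * h := by
    rw [← hh, h1]
    have : emb (C a0) = C a0 := by simp [emb]
    rw [this]; ring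
  have h3 : bF = C a0 + fB * τ.symm h := by
    apply τ.injective
    rw [map_add, map_mul, hτ, AlgEquiv.apply_symm_apply, h2]
    congr 1
    rw [← MvPolynomial.algebraMap_eq, AlgEquiv.commutes]
  have e1 := congrArg (eval ![(0 : ℂ), 0, 0, 0]) h3
  have e2 := congrArg (eval ![(0 : ℂ), 1, -1, 0]) h3
  rw [map_add, map_mul, eval_C, ev_xx, ev_FF] at e1 e2
  simp [xx, FF, gg] at e1 e2
  rw [← e1] at e2
  exact one_ne_zero e2

end Crest.Agent.R268
end

-- ▼ part R268/Stable
section

/-!
# Row 268, T3: `fB` is a 1-stable coordinate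

Explicit isomorphism `ℂ[x,R,T,H,e] ≃ ℂ[a,p,q,r][w]` with `x ↦ fB`.
-/

set_option autoImplicit false

namespace Crest.Agent.R268.St

section forward
variable {S : Type*} [CommRing S] (a p q r w : S)

def fs : S := a ^ 2 + gg a p q r * w
def fR : S := rho a p q r - xx a p q r * fs a p q r w
def fT : S := kk a p q r + xx a p q r * w
def fA : S := a + gg a p q r * fs a p q r w
def fG : S := bb a p q r - rho a p q r * w + fs a p q r w * fT a p q r w
def fE : S := w - fs a p q r w * (a + fA a p q r w)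
def fe : S := fE a p q r w - 2 * gg a p q r * fG a p q r w ^ 2 + xx a p q r * fG a p q r w ^ 3
  + fG a p q r w * fT a p q r w * fA a p q r w

end forward

section inv
variable {S : Type*} [CommRing S] (x R T H e : S)

def jg' : S := 1 + R * T
def jv : S := (1 - T ^ 2) ^ 2
def ju : S := T * (1 + jg' R T * (1 - T ^ 2))

theorem juv : jg' R T ^ 2 * jv T - (R - jg' R T * T) * ju R T = 1 := by
  simp only [jg', jv, ju]; ring

def jG : S := jv T * (x * e - T) - (R - jg' R T * T) * H
def jA : S := -ju R T * (x * e - T) + jg' R T ^ 2 * H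
def jg : S := jg' R T + x * jG x R T H e
def jE : S := e + 2 * jg x R T H e * jG x R T H e ^ 2 - x * jG x R T H e ^ 3
  - jG x R T H e * T * jA x R T H e
def js : S := jA x R T H e ^ 2 + jg x R T H e * jE x R T H e
def ja : S := jA x R T H e - jg x R T H e * js x R T H e
def jw : S := jE x R T H e + js x R T H e * (ja x R T H e + jA x R T H e)
def jrho : S := R + x * js x R T H e
def jk : S := T - x * jw x R T H e
def jb : S := jG x R T H e + jrho x R T H e * jw x R T H e - js x R T H e * T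
def jF : S := x * ja x R T H e + jg x R T H e * jrho x R T H e
def jq : S := x - jg x R T H e * jF x R T H e
def jp : S := ja x R T H e * jF x R T H e + jrho x R T H e
def jr : S := ja x R T H e ^ 2 * jk x R T H e
  - (1 + ja x R T H e * jg x R T H e) * jb x R T H e

end inv

section forward2
variable {S : Type*} [CommRing S] (a p q r w : S)

def fH : S := ju (fR a p q r w) (fT a p q r w) * fG a p q r w
  + jv (fT a p q r w) * fA a p q r w

/-- `g = g' + x G` -/
theorem f_g : gg a p q r = jg' (fR a p q r w) (fT a p q r w) + xx a p q r * fG a p q r w := by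
  have h := id_g a p q r
  simp only [jg', fG, fR, fT] at *
  linear_combination h

/-- `x e - T = g'^2 G + (R - g' T) A` -/
theorem f_key : xx a p q r * fe a p q r w - fT a p q r w =
    jg' (fR a p q r w) (fT a p q r w) ^ 2 * fG a p q r w
      + (fR a p q r w - jg' (fR a p q r w) (fT a p q r w) * fT a p q r w) * fA a p q r w := by
  have hg : jg' (fR a p q r w) (fT a p q r w) = gg a p q r - xx a p q r * fG a p q r w := by
    rw [f_g a p q r w]; ring
  have hk := id_k a p q r
  have ht : tt a p q r = gg a p q r * kk a p q r - xx a p q r * a ^ 2 := rfl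
  rw [hg]
  rw [ht] at hk
  have h1 : xx a p q r * fE a p q r w - fT a p q r w = gg a p q r ^ 2 * fG a p q r w
      + fR a p q r w * fA a p q r w - gg a p q r * fT a p q r w * fA a p q r w := by
    simp only [fE, fT, fG, fR, fA, fs] at *
    linear_combination (-1 : S) * hk
  simp only [fe]
  linear_combination h1


local notation "X'" => xx a p q r
local notation "R'" => fR a p q r w
local notation "T'" => fT a p q r w
local notation "H'" => fH a p q r w
local notation "e'" => fe a p q r w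

theorem f_jG : jG X' R' T' H' e' = fG a p q r w := by
  have hk := f_key a p q r w
  have hu := juv (fR a p q r w) (fT a p q r w)
  simp only [jG, fH]
  rw [hk]
  linear_combination (fG a p q r w) * hu

theorem f_jA : jA X' R' T' H' e' = fA a p q r w := by
  have hk := f_key a p q r w
  have hu := juv (fR a p q r w) (fT a p q r w)
  simp only [jA, fH]
  rw [hk]
  linear_combination (fA a p q r w) * hu

theorem f_jg : jg X' R' T' H' e' = gg a p q r := by
  simp only [jg, f_jG]
  exact (f_g a p q r w).symm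

theorem f_jE : jE X' R' T' H' e' = fE a p q r w := by
  rw [jE, f_jG, f_jA, f_jg]
  simp only [fe]
  ring

theorem f_js : js X' R' T' H' e' = fs a p q r w := by
  rw [js, f_jA, f_jg, f_jE]
  simp only [fE, fA, fs]
  ring

theorem f_ja : ja X' R' T' H' e' = a := by
  rw [ja, f_jA, f_jg, f_js]
  simp only [fA]
  ring

theorem f_jw : jw X' R' T' H' e' = w := by
  rw [jw, f_jA, f_js, f_jE, f_ja]
  simp only [fE]
  ring

theorem f_jrho : jrho X' R' T' H' e' = rho a p q r := by
  rw [jrho, f_js]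
  simp only [fR]
  ring

theorem f_jk : jk X' R' T' H' e' = kk a p q r := by
  rw [jk, f_jw]
  simp only [fT]
  ring

theorem f_jb : jb X' R' T' H' e' = bb a p q r := by
  rw [jb, f_jG, f_jrho, f_jw, f_js]
  simp only [fG]
  ring

theorem f_jF : jF X' R' T' H' e' = FF a p q r := by
  simp only [jF, f_ja, f_jg, f_jrho]
  exact (id_F a p q r).symm

theorem f_jq : jq X' R' T' H' e' = q := by
  simp only [jq, f_jg, f_jF]
  exact (id_q a p q r).symm

theorem f_jp : jp X' R' T' H' e' = p := by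
  simp only [jp, f_ja, f_jF, f_jrho]
  exact (id_p a p q r).symm

theorem f_jr : jr X' R' T' H' e' = r := by
  simp only [jr, f_ja, f_jk, f_jg, f_jb]
  exact (id_r a p q r).symm

end forward2

section inv2
variable {S : Type*} [CommRing S] (x R T H e : S)

local notation "a'" => ja x R T H e
local notation "p'" => jp x R T H e
local notation "q'" => jq x R T H e
local notation "r'" => jr x R T H e
local notation "w'" => jw x R T H e

/-- key relation in the target -/
theorem j_key : x * e - T = jg' R T ^ 2 * jG x R T H e + (R - jg' R T * T) * jA x R T H e := by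
  have hu := juv R T
  simp only [jG, jA]
  linear_combination (-(x * e - T)) * hu

theorem j_s : a' ^ 2 + jg x R T H e * w' = js x R T H e := by
  have hs : js x R T H e = jA x R T H e ^ 2 + jg x R T H e * jE x R T H e := rfl
  simp only [jw, ja]
  linear_combination (-1 : S) * hs

/-- relation (i) -/
theorem j_rel1 : jg x R T H e = 1 + jrho x R T H e * jk x R T H e + x * jb x R T H e := by
  have hg : jg x R T H e = jg' R T + x * jG x R T H e := rfl
  rw [hg]
  simp only [jrho, jk, jb, jg']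
  ring

omit x R T H e in
theorem j_rel2_aux (x e T R g G A E w s a b ρ k : S)
    (hkey : x * e - T = (g - x * G) ^ 2 * G + (R - (g - x * G) * T) * A)
    (hE : e = E - 2 * g * G ^ 2 + x * G ^ 3 + G * T * A)
    (hw : E = w - s * (a + A)) (hA : A = a + g * s) (hs : s = a ^ 2 + g * w)
    (hG : G = b - ρ * w + s * T) (hR : R = ρ - x * s) (hT : T = k + x * w) :
    k = a * (g * k - x * a ^ 2 - ρ) - g ^ 2 * b - g * ρ * a ^ 2 := by
  subst hE hw hG hR hT hA hs
  linear_combination (-1 : S) * hkey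

/-- relation (ii) -/
theorem j_rel2 : jk x R T H e = a' * (jg x R T H e * jk x R T H e - x * a' ^ 2
      - jrho x R T H e) - jg x R T H e ^ 2 * jb x R T H e
      - jg x R T H e * jrho x R T H e * a' ^ 2 := by
  have hkey := j_key x R T H e
  have hg : jg' R T = jg x R T H e - x * jG x R T H e := by
    simp only [jg]; ring
  rw [hg] at hkey
  have hE : e = jE x R T H e - 2 * jg x R T H e * jG x R T H e ^ 2 + x * jG x R T H e ^ 3
      + jG x R T H e * T * jA x R T H e := by
    simp only [jE]; ring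
  have hw : jE x R T H e = w' - js x R T H e * (a' + jA x R T H e) := by
    simp only [jw]; ring
  have hA : jA x R T H e = a' + jg x R T H e * js x R T H e := by
    simp only [ja]; ring
  have hs := j_s x R T H e
  have hG : jG x R T H e = jb x R T H e - jrho x R T H e * w' + js x R T H e * T := by
    simp only [jb]; ring
  have hR : R = jrho x R T H e - x * js x R T H e := by
    simp only [jrho]; ring
  have hT : T = jk x R T H e + x * w' := by
    simp only [jk]; ring
  exact j_rel2_aux _ _ _ _ _ _ _ _ _ _ _ _ _ _ hkey hE hw hA hs.symm hG hR hT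

theorem j_gg : gg a' p' q' r' = jg x R T H e := by
  have h1 := j_rel1 x R T H e
  have h2 := j_rel2 x R T H e
  simp only [gg, jp, jq, jr, jF]
  linear_combination (-1 : S) * h1 - (jrho x R T H e * (1 + a' * jg x R T H e) + a' ^ 2 * x) * h2

theorem j_FF : FF a' p' q' r' = jF x R T H e := by
  simp only [FF, j_gg]
  simp only [jp, jq, jF]
  ring

theorem j_xx : xx a' p' q' r' = x := by
  simp only [xx, j_gg, j_FF]
  simp only [jq]
  ring

theorem j_rho : rho a' p' q' r' = jrho x R T H e := by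
  simp only [rho, j_gg]
  simp only [jp, jq, jF]
  ring

theorem j_kk : kk a' p' q' r' = jk x R T H e := by
  have h2 := j_rel2 x R T H e
  simp only [kk, j_gg]
  simp only [jp, jr, jF]
  linear_combination (-1 - a' * jg x R T H e) * h2

theorem j_bb : bb a' p' q' r' = jb x R T H e := by
  have h2 := j_rel2 x R T H e
  simp only [bb, j_gg]
  simp only [jp, jr, jF]
  linear_combination (- a' ^ 2) * h2

theorem j_fs : fs a' p' q' r' w' = js x R T H e := by
  rw [fs, j_gg, j_s]

theorem j_fR : fR a' p' q' r' w' = R := by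
  rw [fR, j_rho, j_xx, j_fs]
  simp only [jrho]
  ring

theorem j_fT : fT a' p' q' r' w' = T := by
  rw [fT, j_kk, j_xx]
  simp only [jk]
  ring

theorem j_fA : fA a' p' q' r' w' = jA x R T H e := by
  rw [fA, j_gg, j_fs]
  simp only [ja]
  ring

theorem j_fG : fG a' p' q' r' w' = jG x R T H e := by
  rw [fG, j_bb, j_rho, j_fs, j_fT]
  simp only [jb]
  ring

theorem j_fE : fE a' p' q' r' w' = jE x R T H e := by
  rw [fE, j_fs, j_fA]
  simp only [jw]
  ring

theorem j_fe : fe a' p' q' r' w' = e := by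
  rw [fe, j_fE, j_gg, j_fG, j_xx, j_fT, j_fA]
  simp only [jE]
  ring

theorem j_fH : fH a' p' q' r' w' = H := by
  rw [fH, j_fR, j_fT, j_fG, j_fA]
  have hu := juv R T
  simp only [jG, jA]
  linear_combination H * hu

end inv2

/-! ### naturality -/

section map
variable {S S' K : Type*} [CommRing S] [CommRing S'] [FunLike K S S'] [RingHomClass K S S']
  (φ : K)

theorem map_gg (a p q r : S) : φ (gg a p q r) = gg (φ a) (φ p) (φ q) (φ r) := by
  simp only [gg, map_sub, map_mul, map_pow, map_one]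
theorem map_FF (a p q r : S) : φ (FF a p q r) = FF (φ a) (φ p) (φ q) (φ r) := by
  simp only [FF, map_gg, map_add, map_mul]
theorem map_xx (a p q r : S) : φ (xx a p q r) = xx (φ a) (φ p) (φ q) (φ r) := by
  simp only [xx, map_gg, map_FF, map_add, map_mul]
theorem map_rho (a p q r : S) : φ (rho a p q r) = rho (φ a) (φ p) (φ q) (φ r) := by
  simp only [rho, map_gg, map_sub, map_mul, map_pow, map_one]
theorem map_kk (a p q r : S) : φ (kk a p q r) = kk (φ a) (φ p) (φ q) (φ r) := by
  simp only [kk, map_gg, map_sub, map_add, map_mul, map_pow, map_one]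
theorem map_bb (a p q r : S) : φ (bb a p q r) = bb (φ a) (φ p) (φ q) (φ r) := by
  simp only [bb, map_gg, map_sub, map_neg, map_mul, map_pow, map_one]
theorem map_fs (a p q r w : S) : φ (fs a p q r w) = fs (φ a) (φ p) (φ q) (φ r) (φ w) := by
  simp only [fs, map_gg, map_add, map_mul, map_pow]
theorem map_fR (a p q r w : S) : φ (fR a p q r w) = fR (φ a) (φ p) (φ q) (φ r) (φ w) := by
  simp only [fR, map_rho, map_xx, map_fs, map_sub, map_mul]
theorem map_fT (a p q r w : S) : φ (fT a p q r w) = fT (φ a) (φ p) (φ q) (φ r) (φ w) := by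
  simp only [fT, map_kk, map_xx, map_add, map_mul]
theorem map_fA (a p q r w : S) : φ (fA a p q r w) = fA (φ a) (φ p) (φ q) (φ r) (φ w) := by
  simp only [fA, map_gg, map_fs, map_add, map_mul]
theorem map_fG (a p q r w : S) : φ (fG a p q r w) = fG (φ a) (φ p) (φ q) (φ r) (φ w) := by
  simp only [fG, map_bb, map_rho, map_fs, map_fT, map_sub, map_add, map_mul]
theorem map_fE (a p q r w : S) : φ (fE a p q r w) = fE (φ a) (φ p) (φ q) (φ r) (φ w) := by
  simp only [fE, map_fs, map_fA, map_sub, map_add, map_mul]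
theorem map_fe (a p q r w : S) : φ (fe a p q r w) = fe (φ a) (φ p) (φ q) (φ r) (φ w) := by
  simp only [fe, map_fE, map_gg, map_fG, map_xx, map_fT, map_fA, map_sub, map_add, map_mul,
    map_pow, map_ofNat]
theorem map_jg' (R T : S) : φ (jg' R T) = jg' (φ R) (φ T) := by
  simp only [jg', map_add, map_mul, map_one]
theorem map_jv (T : S) : φ (jv T) = jv (φ T) := by
  simp only [jv, map_sub, map_pow, map_one]
theorem map_ju (R T : S) : φ (ju R T) = ju (φ R) (φ T) := by
  simp only [ju, map_jg', map_add, map_sub, map_mul, map_pow, map_one]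
theorem map_fH (a p q r w : S) : φ (fH a p q r w) = fH (φ a) (φ p) (φ q) (φ r) (φ w) := by
  simp only [fH, map_ju, map_jv, map_fR, map_fT, map_fG, map_fA, map_add, map_mul]

variable (x R T H e : S)
theorem map_jG : φ (jG x R T H e) = jG (φ x) (φ R) (φ T) (φ H) (φ e) := by
  simp only [jG, map_jv, map_jg', map_sub, map_mul]
theorem map_jA : φ (jA x R T H e) = jA (φ x) (φ R) (φ T) (φ H) (φ e) := by
  simp only [jA, map_ju, map_jg', map_sub, map_add, map_neg, map_mul, map_pow]
theorem map_jg : φ (jg x R T H e) = jg (φ x) (φ R) (φ T) (φ H) (φ e) := by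
  simp only [jg, map_jG, map_jg', map_add, map_mul]
theorem map_jE : φ (jE x R T H e) = jE (φ x) (φ R) (φ T) (φ H) (φ e) := by
  simp only [jE, map_jG, map_jA, map_jg, map_sub, map_add, map_mul, map_pow, map_ofNat]
theorem map_js : φ (js x R T H e) = js (φ x) (φ R) (φ T) (φ H) (φ e) := by
  simp only [js, map_jE, map_jA, map_jg, map_add, map_mul, map_pow]
theorem map_ja : φ (ja x R T H e) = ja (φ x) (φ R) (φ T) (φ H) (φ e) := by
  simp only [ja, map_js, map_jA, map_jg, map_sub, map_mul]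
theorem map_jw : φ (jw x R T H e) = jw (φ x) (φ R) (φ T) (φ H) (φ e) := by
  simp only [jw, map_js, map_jA, map_ja, map_jE, map_add, map_mul]
theorem map_jrho : φ (jrho x R T H e) = jrho (φ x) (φ R) (φ T) (φ H) (φ e) := by
  simp only [jrho, map_js, map_add, map_mul]
theorem map_jk : φ (jk x R T H e) = jk (φ x) (φ R) (φ T) (φ H) (φ e) := by
  simp only [jk, map_jw, map_sub, map_mul]
theorem map_jb : φ (jb x R T H e) = jb (φ x) (φ R) (φ T) (φ H) (φ e) := by
  simp only [jb, map_jG, map_jrho, map_jw, map_js, map_sub, map_add, map_mul]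
theorem map_jF : φ (jF x R T H e) = jF (φ x) (φ R) (φ T) (φ H) (φ e) := by
  simp only [jF, map_ja, map_jg, map_jrho, map_add, map_mul]
theorem map_jq : φ (jq x R T H e) = jq (φ x) (φ R) (φ T) (φ H) (φ e) := by
  simp only [jq, map_jg, map_jF, map_sub, map_mul]
theorem map_jp : φ (jp x R T H e) = jp (φ x) (φ R) (φ T) (φ H) (φ e) := by
  simp only [jp, map_ja, map_jF, map_jrho, map_add, map_mul]
theorem map_jr : φ (jr x R T H e) = jr (φ x) (φ R) (φ T) (φ H) (φ e) := by
  simp only [jr, map_ja, map_jk, map_jg, map_jb, map_sub, map_add, map_mul, map_pow, map_one]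

end map

/-! ### the automorphism -/

open MvPolynomial

noncomputable section

/-- variables -/
def y (i : Fin 4) : Polynomial P4 := Polynomial.C (X i)
def yw : Polynomial P4 := Polynomial.X

/-- images of the four variables under the forward map (target variables `a,p,q,r,w`) -/
def uf : Fin 4 → Polynomial P4 :=
  ![xx (y 0) (y 1) (y 2) (y 3), fR (y 0) (y 1) (y 2) (y 3) yw, fT (y 0) (y 1) (y 2) (y 3) yw,
    fH (y 0) (y 1) (y 2) (y 3) yw]

/-- images of the four variables under the backward map (target variables `x,R,T,H,e`) -/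
def ub : Fin 4 → Polynomial P4 :=
  ![ja (y 0) (y 1) (y 2) (y 3) yw, jp (y 0) (y 1) (y 2) (y 3) yw, jq (y 0) (y 1) (y 2) (y 3) yw,
    jr (y 0) (y 1) (y 2) (y 3) yw]

def Phi : Polynomial P4 →ₐ[ℂ] Polynomial P4 :=
  Polynomial.eval₂AlgHom (aeval uf) (fe (y 0) (y 1) (y 2) (y 3) yw) (fun _ => Commute.all _ _)

def Psi : Polynomial P4 →ₐ[ℂ] Polynomial P4 :=
  Polynomial.eval₂AlgHom (aeval ub) (jw (y 0) (y 1) (y 2) (y 3) yw) (fun _ => Commute.all _ _)

theorem Phi_y (i : Fin 4) : Phi (y i) = uf i := by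
  simp [Phi, y]
theorem Phi_yw : Phi yw = fe (y 0) (y 1) (y 2) (y 3) yw := by
  simp [Phi, yw]
theorem Psi_y (i : Fin 4) : Psi (y i) = ub i := by
  simp [Psi, y]
theorem Psi_yw : Psi yw = jw (y 0) (y 1) (y 2) (y 3) yw := by
  simp [Psi, yw]

theorem ext_aux {f g : Polynomial P4 →ₐ[ℂ] Polynomial P4} (h : ∀ i, f (y i) = g (y i))
    (hw : f yw = g yw) : f = g := by
  apply Polynomial.algHom_ext'
  · apply MvPolynomial.algHom_ext
    intro i
    exact h i
  · exact hw

theorem Phi_y0 : Phi (y 0) = xx (y 0) (y 1) (y 2) (y 3) := Phi_y 0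
theorem Phi_y1 : Phi (y 1) = fR (y 0) (y 1) (y 2) (y 3) yw := Phi_y 1
theorem Phi_y2 : Phi (y 2) = fT (y 0) (y 1) (y 2) (y 3) yw := Phi_y 2
theorem Phi_y3 : Phi (y 3) = fH (y 0) (y 1) (y 2) (y 3) yw := Phi_y 3
theorem Psi_y0 : Psi (y 0) = ja (y 0) (y 1) (y 2) (y 3) yw := Psi_y 0
theorem Psi_y1 : Psi (y 1) = jp (y 0) (y 1) (y 2) (y 3) yw := Psi_y 1
theorem Psi_y2 : Psi (y 2) = jq (y 0) (y 1) (y 2) (y 3) yw := Psi_y 2
theorem Psi_y3 : Psi (y 3) = jr (y 0) (y 1) (y 2) (y 3) yw := Psi_y 3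

theorem Phi_Psi : Phi.comp Psi = AlgHom.id ℂ _ := by
  apply ext_aux
  · intro i
    simp only [AlgHom.comp_apply, AlgHom.id_apply]
    fin_cases i
    · change Phi (Psi (y 0)) = y 0
      rw [Psi_y0, map_ja, Phi_y0, Phi_y1, Phi_y2, Phi_y3, Phi_yw, f_ja]
    · change Phi (Psi (y 1)) = y 1
      rw [Psi_y1, map_jp, Phi_y0, Phi_y1, Phi_y2, Phi_y3, Phi_yw, f_jp]
    · change Phi (Psi (y 2)) = y 2
      rw [Psi_y2, map_jq, Phi_y0, Phi_y1, Phi_y2, Phi_y3, Phi_yw, f_jq]
    · change Phi (Psi (y 3)) = y 3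
      rw [Psi_y3, map_jr, Phi_y0, Phi_y1, Phi_y2, Phi_y3, Phi_yw, f_jr]
  · simp only [AlgHom.comp_apply, AlgHom.id_apply]
    rw [Psi_yw, map_jw, Phi_y0, Phi_y1, Phi_y2, Phi_y3, Phi_yw, f_jw]

theorem Psi_Phi : Psi.comp Phi = AlgHom.id ℂ _ := by
  apply ext_aux
  · intro i
    simp only [AlgHom.comp_apply, AlgHom.id_apply]
    fin_cases i
    · change Psi (Phi (y 0)) = y 0
      rw [Phi_y0, map_xx, Psi_y0, Psi_y1, Psi_y2, Psi_y3, j_xx]
    · change Psi (Phi (y 1)) = y 1
      rw [Phi_y1, map_fR, Psi_y0, Psi_y1, Psi_y2, Psi_y3, Psi_yw, j_fR]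
    · change Psi (Phi (y 2)) = y 2
      rw [Phi_y2, map_fT, Psi_y0, Psi_y1, Psi_y2, Psi_y3, Psi_yw, j_fT]
    · change Psi (Phi (y 3)) = y 3
      rw [Phi_y3, map_fH, Psi_y0, Psi_y1, Psi_y2, Psi_y3, Psi_yw, j_fH]
  · simp only [AlgHom.comp_apply, AlgHom.id_apply]
    rw [Phi_yw, map_fe, Psi_y0, Psi_y1, Psi_y2, Psi_y3, Psi_yw, j_fe]

/-- The automorphism of `B[w]`. -/
def sigma : Polynomial P4 ≃ₐ[ℂ] Polynomial P4 := AlgEquiv.ofAlgHom Psi Phi Psi_Phi Phi_Psi

end

end Crest.Agent.R268.St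

namespace Crest.Agent.R268
open MvPolynomial St

/-- **T3**: `fB` is a `1`-stable coordinate. -/
theorem stable : ∃ σ : Polynomial P4 ≃ₐ[ℂ] Polynomial P4,
    σ (Polynomial.C fB) = Polynomial.C (X 0) := by
  refine ⟨sigma, ?_⟩
  change Psi (Polynomial.C fB) = y 0
  have h : (Polynomial.C fB : Polynomial P4) = xx (y 0) (y 1) (y 2) (y 3) := by
    rw [fB, map_xx]
    rfl
  rw [h, map_xx, Psi_y0, Psi_y1, Psi_y2, Psi_y3, j_xx]

end Crest.Agent.R268
end

-- ▼ part R268/FibCommon
section

/-! Row 268, T2: common lemmas for the fibres of `fB`. -/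

set_option autoImplicit false

namespace Crest.Agent.R268

open MvPolynomial

section maps
variable {R R' : Type*} [CommRing R] [CommRing R'] (f : R →+* R') (a p q r : R)

theorem map_gg : f (gg a p q r) = gg (f a) (f p) (f q) (f r) := by simp [gg]
theorem map_FF : f (FF a p q r) = FF (f a) (f p) (f q) (f r) := by simp [FF, map_gg]
theorem map_xx : f (xx a p q r) = xx (f a) (f p) (f q) (f r) := by simp [xx, map_gg, map_FF]
theorem map_rho : f (rho a p q r) = rho (f a) (f p) (f q) (f r) := by simp [rho, map_gg]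
theorem map_kk : f (kk a p q r) = kk (f a) (f p) (f q) (f r) := by simp [kk, map_gg]
theorem map_bb : f (bb a p q r) = bb (f a) (f p) (f q) (f r) := by simp [bb, map_gg]
theorem map_tt : f (tt a p q r) = tt (f a) (f p) (f q) (f r) := by
  simp [tt, map_gg, map_kk, map_xx]
theorem map_cc : f (cc a p q r) = cc (f a) (f p) (f q) (f r) := by simp [cc, map_rho, map_tt]

end maps

section rec
variable {R : Type*} [CommRing R] {x F g ρ t a k b : R}

/-- reconstruction of `g` -/
theorem gg_rec (H1 : F = x * a + g * ρ) (H2 : t = g * k - x * a ^ 2)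
    (H3 : k = a * (t - ρ) - g ^ 2 * b - g * ρ * a ^ 2) (H4 : g = 1 + ρ * k + x * b) :
    gg a (a * F + ρ) (x - g * F) (a ^ 2 * k - (1 + a * g) * b) = g := by
  have h5 : a * (a * F + ρ) ^ 2 + (x - g * F) * (a ^ 2 * k - (1 + a * g) * b)
      = - ρ * k - x * b := by
    have e1 : F - x * a - g * ρ = 0 := by rw [H1]; ring
    have e2 : x * a ^ 2 + t - g * k = 0 := by rw [H2]; ring
    have e3 : g ^ 2 * b - (a * (t - ρ) - g * ρ * a ^ 2 - k) = 0 := by
      linear_combination H3
    linear_combination (a * F + ρ) * e3 + a * (a * F + ρ) * e2 +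
      (b * g + a ^ 2 * (a * F + ρ) - a * k) * e1
  rw [gg, sub_sub, h5]
  linear_combination -H4

theorem FF_rec (H1 : F = x * a + g * ρ)
    (hg : gg a (a * F + ρ) (x - g * F) (a ^ 2 * k - (1 + a * g) * b) = g) :
    FF a (a * F + ρ) (x - g * F) (a ^ 2 * k - (1 + a * g) * b) = F := by
  rw [FF, hg]; linear_combination -H1

theorem xx_rec (H1 : F = x * a + g * ρ)
    (hg : gg a (a * F + ρ) (x - g * F) (a ^ 2 * k - (1 + a * g) * b) = g) :
    xx a (a * F + ρ) (x - g * F) (a ^ 2 * k - (1 + a * g) * b) = x := by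
  rw [xx, FF_rec H1 hg, hg]; ring

theorem rho_rec (H1 : F = x * a + g * ρ)
    (hg : gg a (a * F + ρ) (x - g * F) (a ^ 2 * k - (1 + a * g) * b) = g) :
    rho a (a * F + ρ) (x - g * F) (a ^ 2 * k - (1 + a * g) * b) = ρ := by
  rw [rho, hg]; linear_combination a * H1

theorem kk_rec (H1 : F = x * a + g * ρ) (H2 : t = g * k - x * a ^ 2)
    (H3 : k = a * (t - ρ) - g ^ 2 * b - g * ρ * a ^ 2)
    (hg : gg a (a * F + ρ) (x - g * F) (a ^ 2 * k - (1 + a * g) * b) = g) :
    kk a (a * F + ρ) (x - g * F) (a ^ 2 * k - (1 + a * g) * b) = k := by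
  rw [kk, hg]
  linear_combination (1 + a * g) * (-H3) - a * (1 + a * g) * H2 - a ^ 2 * (1 + a * g) * H1

theorem bb_rec (H1 : F = x * a + g * ρ) (H2 : t = g * k - x * a ^ 2)
    (H3 : k = a * (t - ρ) - g ^ 2 * b - g * ρ * a ^ 2)
    (hg : gg a (a * F + ρ) (x - g * F) (a ^ 2 * k - (1 + a * g) * b) = g) :
    bb a (a * F + ρ) (x - g * F) (a ^ 2 * k - (1 + a * g) * b) = b := by
  rw [bb, hg]
  linear_combination (a ^ 2) * (-H3) - a ^ 3 * H2 - a ^ 4 * H1

end rec

/-- The isomorphism `P4 / (fB - c) ≃ P3` from two substitutions. -/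
theorem quot_equiv (c : ℂ) (v : Fin 4 → P3) (w : Fin 3 → P4)
    (h0 : xx (v 0) (v 1) (v 2) (v 3) = C c)
    (h1 : ∀ i, aeval v (w i) = X i)
    (h2 : ∀ i, Ideal.Quotient.mk (Ideal.span {fB - C c}) (aeval w (v i)) =
      Ideal.Quotient.mk (Ideal.span {fB - C c}) (X i)) :
    Nonempty ((P4 ⧸ Ideal.span {fB - C c}) ≃ₐ[ℂ] P3) := by
  set I : Ideal P4 := Ideal.span {fB - C c} with hI
  have hker : ∀ z ∈ I, aeval v z = 0 := by
    intro z hz
    rw [hI, Ideal.mem_span_singleton] at hz
    obtain ⟨y, rfl⟩ := hz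
    have : aeval v (fB - C c) = 0 := by
      rw [map_sub, fB]
      have := map_xx ((aeval v : P4 →ₐ[ℂ] P3) : P4 →+* P3) (X 0) (X 1) (X 2) (X 3)
      simp only [RingHom.coe_coe, aeval_X] at this
      rw [this, h0]
      simp
    rw [map_mul, this, zero_mul]
  let φ : (P4 ⧸ I) →ₐ[ℂ] P3 := Ideal.Quotient.liftₐ I (aeval v) hker
  let ψ : P3 →ₐ[ℂ] (P4 ⧸ I) := (Ideal.Quotient.mkₐ ℂ I).comp (aeval w)
  have hφ : ∀ z, φ (Ideal.Quotient.mk I z) = aeval v z := fun z => rfl
  have hψ : ∀ z, ψ z = Ideal.Quotient.mk I (aeval w z) := fun z => rfl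
  refine ⟨AlgEquiv.ofAlgHom φ ψ ?_ ?_⟩
  · apply MvPolynomial.algHom_ext
    intro i
    rw [AlgHom.comp_apply, hψ, hφ, aeval_X, h1 i, AlgHom.id_apply]
  · apply Ideal.Quotient.algHom_ext
    apply MvPolynomial.algHom_ext
    intro i
    change ψ (φ (Ideal.Quotient.mk I (X i))) = Ideal.Quotient.mk I (X i)
    rw [hφ, hψ, aeval_X]
    exact h2 i

end Crest.Agent.R268
end

-- ▼ part R268/FibNe
section

/-! Row 268, T2a: the fibres `fB = c`, `c ≠ 0`, are affine 3-spaces with coordinates `F, g, c`. -/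

set_option autoImplicit false

namespace Crest.Agent.R268

open MvPolynomial

section fns
variable {R : Type*} [CommRing R] (y F g c : R)

/-- `t = (F g c - F^2 - g^3 (g - 1)) / x` -/
def tN : R := y * (F * g * c - F ^ 2 - g ^ 3 * (g - 1))
/-- `ρ = c - t` -/
def rN : R := c - tN y F g c
/-- `a = (F - g ρ) / x` -/
def aN : R := y * (F - g * rN y F g c)
/-- `k = (2 t - c) a + g (ρ t - g (g - 1)) / x` -/
def kN : R := (2 * tN y F g c - c) * aN y F g c +
  g * (y * (rN y F g c * tN y F g c - g * (g - 1)))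
/-- `b = (g - 1 - ρ k) / x` -/
def bN : R := y * (g - 1 - rN y F g c * kN y F g c)

variable {y F g c} {x : R}

theorem relN1 (h : x * y = 1) : F = x * aN y F g c + g * rN y F g c := by
  rw [aN]; linear_combination (-(F - g * rN y F g c)) * h

theorem relN4 (h : x * y = 1) : g = 1 + rN y F g c * kN y F g c + x * bN y F g c := by
  rw [bN]; linear_combination (-(g - 1 - rN y F g c * kN y F g c)) * h

theorem cancelN (h : x * y = 1) {u v : R} (huv : x * u = x * v) : u = v := by
  calc u = y * (x * u) := by rw [← mul_assoc, mul_comm y x, h, one_mul]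
    _ = y * (x * v) := by rw [huv]
    _ = v := by rw [← mul_assoc, mul_comm y x, h, one_mul]

theorem xtN (h : x * y = 1) :
    x * tN y F g c = F * g * c - F ^ 2 - g ^ 3 * (g - 1) := by
  rw [tN, ← mul_assoc, h, one_mul]

theorem xkN (h : x * y = 1) : x * kN y F g c = (2 * tN y F g c - c) * (F - g * rN y F g c) +
    g * (rN y F g c * tN y F g c - g * (g - 1)) := by
  rw [kN, aN]
  linear_combination ((2 * tN y F g c - c) * (F - g * rN y F g c) +
    g * (rN y F g c * tN y F g c - g * (g - 1))) * h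

theorem relN2 (h : x * y = 1) :
    tN y F g c = g * kN y F g c - x * aN y F g c ^ 2 := by
  apply cancelN h
  have h1 : x * aN y F g c = F - g * rN y F g c := by
    linear_combination -(relN1 (F := F) (g := g) (c := c) h)
  have h2 := xkN (F := F) (g := g) (c := c) h
  have h3 := xtN (F := F) (g := g) (c := c) h
  have h4 : rN y F g c = c - tN y F g c := rfl
  have h5 : x * (x * aN y F g c ^ 2) = (x * aN y F g c) ^ 2 := by ring
  rw [mul_sub, h5, h1, mul_left_comm, h2, h3, h4]
  ring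

theorem relN3 (h : x * y = 1) : kN y F g c = aN y F g c * (tN y F g c - rN y F g c) -
    g ^ 2 * bN y F g c - g * rN y F g c * aN y F g c ^ 2 := by
  apply cancelN h
  have h1 : x * aN y F g c = F - g * rN y F g c := by
    linear_combination -(relN1 (F := F) (g := g) (c := c) h)
  have h2 := xkN (F := F) (g := g) (c := c) h
  have h6 := relN2 (F := F) (g := g) (c := c) h
  have h7 : x * bN y F g c = g - 1 - rN y F g c * kN y F g c := by
    linear_combination -(relN4 (F := F) (g := g) (c := c) h)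
  have h4 : c = rN y F g c + tN y F g c := by rw [rN]; ring
  have h8 : x * aN y F g c ^ 2 = g * kN y F g c - tN y F g c := by
    linear_combination h6
  rw [h2]
  have h9 : x * (aN y F g c * (tN y F g c - rN y F g c) -
    g ^ 2 * bN y F g c - g * rN y F g c * aN y F g c ^ 2) =
    (x * aN y F g c) * (tN y F g c - rN y F g c) - g ^ 2 * (x * bN y F g c) -
      g * rN y F g c * (x * aN y F g c ^ 2) := by ring
  rw [h9, h1, h7, h8]
  generalize rN y F g c = ρ at *
  generalize tN y F g c = t at *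
  generalize kN y F g c = k at *
  subst h4
  ring

end fns

section maps
variable {R R' : Type*} [CommRing R] [CommRing R'] (f : R →+* R') (y F g c : R)

theorem map_tN : f (tN y F g c) = tN (f y) (f F) (f g) (f c) := by simp [tN]

end maps

theorem fib_ne (c : ℂ) (hc : c ≠ 0) :
    Nonempty ((P4 ⧸ Ideal.span {fB - C c}) ≃ₐ[ℂ] P3) := by
  have hxy : (C c : P3) * C c⁻¹ = 1 := by rw [← C_mul, mul_inv_cancel₀ hc, C_1]
  set y : P3 := C c⁻¹ with hy
  set F : P3 := X 0 with hF
  set g : P3 := X 1 with hg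
  set e : P3 := X 2 with he
  have H1 := relN1 (F := F) (g := g) (c := e) hxy
  have H2 := relN2 (F := F) (g := g) (c := e) hxy
  have H3 := relN3 (F := F) (g := g) (c := e) hxy
  have H4 := relN4 (F := F) (g := g) (c := e) hxy
  have hgg := gg_rec H1 H2 H3 H4
  refine quot_equiv c
    ![aN y F g e, aN y F g e * F + rN y F g e, C c - g * F,
      aN y F g e ^ 2 * kN y F g e - (1 + aN y F g e * g) * bN y F g e]
    ![FF (X 0) (X 1) (X 2) (X 3), gg (X 0) (X 1) (X 2) (X 3), cc (X 0) (X 1) (X 2) (X 3)]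
    ?_ ?_ ?_
  · exact xx_rec H1 hgg
  · intro i
    fin_cases i
    · change aeval _ (FF (X 0) (X 1) (X 2) (X 3) : P4) = F
      have := map_FF ((aeval ![aN y F g e, aN y F g e * F + rN y F g e, C c - g * F,
        aN y F g e ^ 2 * kN y F g e - (1 + aN y F g e * g) * bN y F g e] :
        P4 →ₐ[ℂ] P3) : P4 →+* P3) (X 0) (X 1) (X 2) (X 3)
      simp only [RingHom.coe_coe, aeval_X] at this
      exact this.trans (FF_rec H1 hgg)
    · change aeval _ (gg (X 0) (X 1) (X 2) (X 3) : P4) = g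
      have := map_gg ((aeval ![aN y F g e, aN y F g e * F + rN y F g e, C c - g * F,
        aN y F g e ^ 2 * kN y F g e - (1 + aN y F g e * g) * bN y F g e] :
        P4 →ₐ[ℂ] P3) : P4 →+* P3) (X 0) (X 1) (X 2) (X 3)
      simp only [RingHom.coe_coe, aeval_X] at this
      exact this.trans hgg
    · change aeval _ (cc (X 0) (X 1) (X 2) (X 3) : P4) = e
      have := map_cc ((aeval ![aN y F g e, aN y F g e * F + rN y F g e, C c - g * F,
        aN y F g e ^ 2 * kN y F g e - (1 + aN y F g e * g) * bN y F g e] :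
        P4 →ₐ[ℂ] P3) : P4 →+* P3) (X 0) (X 1) (X 2) (X 3)
      simp only [RingHom.coe_coe, aeval_X] at this
      refine this.trans ?_
      change cc (aN y F g e) (aN y F g e * F + rN y F g e) (C c - g * F)
        (aN y F g e ^ 2 * kN y F g e - (1 + aN y F g e * g) * bN y F g e) = e
      rw [cc, tt, rho_rec H1 hgg, hgg, kk_rec H1 H2 H3 hgg, xx_rec H1 hgg, ← H2, rN]
      ring
  · -- the other composition
    set I : Ideal P4 := Ideal.span {fB - C c} with hI
    let π : P4 →+* (P4 ⧸ I) := Ideal.Quotient.mk I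
    let W : Fin 3 → P4 :=
      ![FF (X 0) (X 1) (X 2) (X 3), gg (X 0) (X 1) (X 2) (X 3), cc (X 0) (X 1) (X 2) (X 3)]
    let Ψ : P3 →+* (P4 ⧸ I) := π.comp ((aeval W : P3 →ₐ[ℂ] P4) : P3 →+* P4)
    -- elements of the quotient
    let A := π (X 0)
    let P := π (X 1)
    let Q := π (X 2)
    let S := π (X 3)
    have hΨF : Ψ F = FF A P Q S := by
      change π (aeval W (X 0)) = _
      rw [aeval_X]; exact map_FF π _ _ _ _
    have hΨg : Ψ g = gg A P Q S := by
      change π (aeval W (X 1)) = _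
      rw [aeval_X]; exact map_gg π _ _ _ _
    have hΨe : Ψ e = cc A P Q S := by
      change π (aeval W (X 2)) = _
      rw [aeval_X]; exact map_cc π _ _ _ _
    have hΨc : Ψ (C c) = xx A P Q S := by
      change π (aeval W (C c)) = _
      have h1 : (aeval W (C c) : P4) = C c := by simp [MvPolynomial.algebraMap_eq]
      have h2 : π (C c) = π fB := by
        rw [Ideal.Quotient.eq]
        have : (C c : P4) - fB = -(fB - C c) := by ring
        rw [this]
        exact I.neg_mem (Ideal.subset_span rfl)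
      rw [h1, h2, fB]; exact map_xx π _ _ _ _
    set Y := Ψ y with hY
    have hXY : xx A P Q S * Y = 1 := by
      rw [← hΨc, hY, ← map_mul, hxy, map_one]
    have ht : Ψ (tN y F g e) = tt A P Q S := by
      rw [map_tN, hΨF, hΨg, hΨe]
      apply cancelN hXY
      rw [xtN hXY, id_xt]
    have hr : Ψ (rN y F g e) = rho A P Q S := by
      have : rN y F g e = e - tN y F g e := rfl
      rw [this, map_sub, ht, hΨe, cc]; ring
    have ha : Ψ (aN y F g e) = A := by
      apply cancelN hXY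
      have : aN y F g e = y * (F - g * rN y F g e) := rfl
      rw [this, map_mul, map_sub, map_mul, hr, hΨF, hΨg, ← mul_assoc, hXY, one_mul]
      linear_combination id_F A P Q S
    have hk : Ψ (kN y F g e) = kk A P Q S := by
      have h1 := congrArg Ψ (show kN y F g e = (2 * tN y F g e - e) * aN y F g e +
        g * (y * (rN y F g e * tN y F g e - g * (g - 1))) from rfl)
      simp only [map_add, map_mul, map_sub, map_one, map_ofNat, ht, hr, ha, hΨg, hΨe, ← hY] at h1
      rw [h1]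
      have h2 := id_rt A P Q S
      have h3 := id_k A P Q S
      have h4 : cc A P Q S = rho A P Q S + tt A P Q S := rfl
      have h5 : Y * (rho A P Q S * tt A P Q S - gg A P Q S * (gg A P Q S - 1)) =
          - (gg A P Q S * bb A P Q S + rho A P Q S * A ^ 2) := by
        rw [h2]
        linear_combination (-(gg A P Q S * bb A P Q S + rho A P Q S * A ^ 2)) * hXY
      rw [h5, h4]
      linear_combination -h3
    have hb : Ψ (bN y F g e) = bb A P Q S := by
      have h1 := congrArg Ψ (show bN y F g e = y * (g - 1 - rN y F g e * kN y F g e) from rfl)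
      simp only [map_mul, map_sub, map_one, hr, hk, hΨg, ← hY] at h1
      rw [h1]
      apply cancelN hXY
      rw [← mul_assoc, hXY, one_mul]
      linear_combination id_g A P Q S
    intro i
    fin_cases i
    · exact ha
    · change Ψ (aN y F g e * F + rN y F g e) = P
      rw [map_add, map_mul, ha, hr, hΨF]
      exact (id_p A P Q S).symm
    · change Ψ (C c - g * F) = Q
      rw [map_sub, map_mul, hΨc, hΨg, hΨF]
      exact (id_q A P Q S).symm
    · change Ψ (aN y F g e ^ 2 * kN y F g e - (1 + aN y F g e * g) * bN y F g e) = S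
      simp only [map_sub, map_mul, map_pow, map_add, map_one, ha, hk, hb, hΨg]
      exact (id_r A P Q S).symm

end Crest.Agent.R268
end

-- ▼ part R268/FibZero

/-! Row 268, T2b: the fibre `fB = 0` is an affine 3-space with coordinates `ρ, k, τ`. -/

set_option autoImplicit false

namespace Crest.Agent.R268

open MvPolynomial

section fns
variable {R : Type*} [CommRing R] (ρ k τ : R)

/-- `g = 1 + ρ k` -/
def gZ : R := 1 + ρ * k
/-- `β = k^2 - 2 k^4 + g τ` -/
def βZ : R := k ^ 2 - 2 * k ^ 4 + gZ ρ k * τ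
/-- `a = k^2 + g β` -/
def aZ : R := k ^ 2 + gZ ρ k * βZ ρ k τ
/-- `b` -/
def bZ : R := -(k - k ^ 3 + ρ * τ + k * (2 * gZ ρ k - 3) * βZ ρ k τ + gZ ρ k * ρ * βZ ρ k τ ^ 2)

theorem relZ3 : k = aZ ρ k τ * (gZ ρ k * k - ρ) - gZ ρ k ^ 2 * bZ ρ k τ
    - gZ ρ k * ρ * aZ ρ k τ ^ 2 := by
  simp only [aZ, bZ, βZ, gZ]; ring

/-- the coordinate `τ` in terms of `a, g, k, b` -/
def tauE {R : Type*} [CommRing R] (a g k b : R) : R :=
  k * b + a ^ 2 + (g * (k * b + a ^ 2) - a ^ 2 + a - k ^ 2 * a) * (1 - a - 2 * k ^ 2)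

theorem betaE_rec : gZ ρ k * (k * bZ ρ k τ + aZ ρ k τ ^ 2) - aZ ρ k τ ^ 2 + aZ ρ k τ
    - k ^ 2 * aZ ρ k τ = βZ ρ k τ := by
  simp only [aZ, bZ, βZ, gZ]; ring

theorem tauE_rec : tauE (aZ ρ k τ) (gZ ρ k) k (bZ ρ k τ) = τ := by
  rw [tauE, betaE_rec]
  simp only [aZ, bZ, βZ, gZ]; ring

end fns

section quot
variable {R : Type*} [CommRing R] {a g k b ρ : R}

/-- in the zero fibre: `β = a (..)`, reconstruction of `β` -/
theorem g_beta (hg : g = 1 + ρ * k)
    (h3 : k = a * (g * k - ρ) - g ^ 2 * b - g * ρ * a ^ 2) :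
    g * (g * (k * b + a ^ 2) - a ^ 2 + a - k ^ 2 * a) = a - k ^ 2 := by
  have hk : ρ * k = g - 1 := by rw [hg]; ring
  linear_combination k * h3 + (-a - g * a ^ 2) * hk

theorem betaZ_eq (hg : g = 1 + ρ * k)
    (h3 : k = a * (g * k - ρ) - g ^ 2 * b - g * ρ * a ^ 2) :
    βZ ρ k (tauE a g k b) = g * (k * b + a ^ 2) - a ^ 2 + a - k ^ 2 * a := by
  have h := g_beta hg h3
  rw [βZ, gZ, ← hg, tauE]
  linear_combination (1 - a - 2 * k ^ 2) * h

theorem aZ_eq (hg : g = 1 + ρ * k)
    (h3 : k = a * (g * k - ρ) - g ^ 2 * b - g * ρ * a ^ 2) :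
    aZ ρ k (tauE a g k b) = a := by
  rw [aZ, betaZ_eq hg h3, gZ, ← hg]
  linear_combination g_beta hg h3

theorem bZ_eq (hg : g = 1 + ρ * k)
    (h3 : k = a * (g * k - ρ) - g ^ 2 * b - g * ρ * a ^ 2) :
    bZ ρ k (tauE a g k b) = b := by
  have h := g_beta hg h3
  have hk : ρ * k = g - 1 := by rw [hg]; ring
  rw [bZ, betaZ_eq hg h3, gZ, ← hg]
  have ht : tauE a g k b = k * b + a ^ 2 +
      (g * (k * b + a ^ 2) - a ^ 2 + a - k ^ 2 * a) * (1 - a - 2 * k ^ 2) := rfl
  rw [ht]
  obtain ⟨β, hβ⟩ : ∃ β, β = g * (k * b + a ^ 2) - a ^ 2 + a - k ^ 2 * a := ⟨_, rfl⟩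
  rw [← hβ] at h ⊢
  linear_combination (k - ρ * β) * h + (k * a + 3 * k * β - b * (g + 1)) * hk - h3 - ρ * hβ

end quot

section maps
variable {R R' : Type*} [CommRing R] [CommRing R'] (f : R →+* R')

theorem map_gZ (ρ k : R) : f (gZ ρ k) = gZ (f ρ) (f k) := by simp [gZ]
theorem map_βZ (ρ k τ : R) : f (βZ ρ k τ) = βZ (f ρ) (f k) (f τ) := by
  simp only [βZ, map_gZ, map_add, map_sub, map_mul, map_pow, map_ofNat]
theorem map_aZ (ρ k τ : R) : f (aZ ρ k τ) = aZ (f ρ) (f k) (f τ) := by
  simp only [aZ, map_gZ, map_βZ, map_add, map_mul, map_pow]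
theorem map_bZ (ρ k τ : R) : f (bZ ρ k τ) = bZ (f ρ) (f k) (f τ) := by
  simp only [bZ, map_gZ, map_βZ, map_add, map_sub, map_neg, map_mul, map_pow, map_ofNat]
theorem map_tauE (a g k b : R) : f (tauE a g k b) = tauE (f a) (f g) (f k) (f b) := by
  simp only [tauE, map_add, map_sub, map_mul, map_pow, map_one, map_ofNat]

end maps

theorem fib_zero : Nonempty ((P4 ⧸ Ideal.span {fB - C (0 : ℂ)}) ≃ₐ[ℂ] P3) := by
  set ρ : P3 := X 0 with hρ
  set k : P3 := X 1 with hk
  set τ : P3 := X 2 with hτ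
  have H1 : gZ ρ k * ρ = 0 * aZ ρ k τ + gZ ρ k * ρ := by ring
  have H2 : gZ ρ k * k = gZ ρ k * k - 0 * aZ ρ k τ ^ 2 := by ring
  have H3 : k = aZ ρ k τ * (gZ ρ k * k - ρ) - gZ ρ k ^ 2 * bZ ρ k τ
    - gZ ρ k * ρ * aZ ρ k τ ^ 2 := relZ3 ρ k τ
  have H4 : gZ ρ k = 1 + ρ * k + 0 * bZ ρ k τ := by rw [gZ]; ring
  have hgg := gg_rec H1 H2 H3 H4
  have hr := rho_rec H1 hgg
  have hkk := kk_rec H1 H2 H3 hgg
  have hbb := bb_rec H1 H2 H3 hgg
  have hxx := xx_rec H1 hgg
  let v : Fin 4 → P3 := ![aZ ρ k τ, aZ ρ k τ * (gZ ρ k * ρ) + ρ, 0 - gZ ρ k * (gZ ρ k * ρ),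
      aZ ρ k τ ^ 2 * k - (1 + aZ ρ k τ * gZ ρ k) * bZ ρ k τ]
  let w : Fin 3 → P4 := ![rho (X 0) (X 1) (X 2) (X 3), kk (X 0) (X 1) (X 2) (X 3),
      tauE (X 0) (gg (X 0) (X 1) (X 2) (X 3)) (kk (X 0) (X 1) (X 2) (X 3))
        (bb (X 0) (X 1) (X 2) (X 3))]
  let Φ : P4 →+* P3 := ((aeval v : P4 →ₐ[ℂ] P3) : P4 →+* P3)
  have hΦ : ∀ i, Φ (X i) = v i := fun i => aeval_X _ _
  have h0 : Φ (X 0) = aZ ρ k τ := hΦ 0
  have h1 : Φ (X 1) = aZ ρ k τ * (gZ ρ k * ρ) + ρ := hΦ 1
  have h2 : Φ (X 2) = 0 - gZ ρ k * (gZ ρ k * ρ) := hΦ 2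
  have h3 : Φ (X 3) = aZ ρ k τ ^ 2 * k - (1 + aZ ρ k τ * gZ ρ k) * bZ ρ k τ := hΦ 3
  refine quot_equiv 0 v w ?_ ?_ ?_
  · rw [C_0]; exact hxx
  · intro i
    fin_cases i
    · change Φ (rho (X 0) (X 1) (X 2) (X 3)) = ρ
      rw [map_rho, h0, h1, h2, h3]; exact hr
    · change Φ (kk (X 0) (X 1) (X 2) (X 3)) = k
      rw [map_kk, h0, h1, h2, h3]; exact hkk
    · change Φ (tauE (X 0) (gg (X 0) (X 1) (X 2) (X 3)) (kk (X 0) (X 1) (X 2) (X 3))
        (bb (X 0) (X 1) (X 2) (X 3))) = τ
      rw [map_tauE, map_gg, map_kk, map_bb, h0, h1, h2, h3, hgg, hkk, hbb]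
      exact tauE_rec ρ k τ
  · set I : Ideal P4 := Ideal.span {fB - C (0 : ℂ)} with hI
    let π : P4 →+* (P4 ⧸ I) := Ideal.Quotient.mk I
    let Ψ : P3 →+* (P4 ⧸ I) := π.comp ((aeval w : P3 →ₐ[ℂ] P4) : P3 →+* P4)
    let A := π (X 0)
    let P := π (X 1)
    let Q := π (X 2)
    let S := π (X 3)
    have hx0 : xx A P Q S = 0 := by
      have h4 : π fB = 0 := by
        rw [Ideal.Quotient.eq_zero_iff_mem, hI]
        have : (fB : P4) = fB - C (0 : ℂ) := by simp
        rw [this]
        exact Ideal.subset_span (by simp)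
      rw [← h4, fB]; exact (map_xx π _ _ _ _).symm
    have e0 : Ψ ρ = rho A P Q S := by
      change π (aeval w (X 0)) = _
      rw [aeval_X]; exact map_rho π _ _ _ _
    have e1 : Ψ k = kk A P Q S := by
      change π (aeval w (X 1)) = _
      rw [aeval_X]; exact map_kk π _ _ _ _
    have e2 : Ψ τ = tauE A (gg A P Q S) (kk A P Q S) (bb A P Q S) := by
      change π (aeval w (X 2)) = _
      rw [aeval_X]
      change π (tauE (X 0) (gg (X 0) (X 1) (X 2) (X 3)) (kk (X 0) (X 1) (X 2) (X 3))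
        (bb (X 0) (X 1) (X 2) (X 3))) = _
      rw [map_tauE, map_gg, map_kk, map_bb]
    have hg : gg A P Q S = 1 + rho A P Q S * kk A P Q S := by
      have := id_g A P Q S
      rw [hx0] at this
      linear_combination this
    have ht : tt A P Q S = gg A P Q S * kk A P Q S := by
      rw [tt, hx0]; ring
    have h3' : kk A P Q S = A * (gg A P Q S * kk A P Q S - rho A P Q S) -
        gg A P Q S ^ 2 * bb A P Q S - gg A P Q S * rho A P Q S * A ^ 2 := by
      have := id_k A P Q S
      rw [ht] at this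
      exact this
    have hgZ : Ψ (gZ ρ k) = gg A P Q S := by
      rw [map_gZ, e0, e1, gZ, hg]
    have haZ : Ψ (aZ ρ k τ) = A := by
      rw [map_aZ, e0, e1, e2]; exact aZ_eq hg h3'
    have hbZ : Ψ (bZ ρ k τ) = bb A P Q S := by
      rw [map_bZ, e0, e1, e2]; exact bZ_eq hg h3'
    have hF : gg A P Q S * rho A P Q S = FF A P Q S := by
      have := id_F A P Q S
      rw [hx0] at this
      linear_combination -this
    intro i
    fin_cases i
    · exact haZ
    · change Ψ (aZ ρ k τ * (gZ ρ k * ρ) + ρ) = P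
      simp only [map_add, map_mul, haZ, hgZ, e0]
      rw [hF]
      exact (id_p A P Q S).symm
    · change Ψ (0 - gZ ρ k * (gZ ρ k * ρ)) = Q
      simp only [map_sub, map_mul, map_zero, hgZ, e0]
      rw [hF]
      have := id_q A P Q S
      rw [hx0] at this
      exact this.symm
    · change Ψ (aZ ρ k τ ^ 2 * k - (1 + aZ ρ k τ * gZ ρ k) * bZ ρ k τ) = S
      simp only [map_sub, map_mul, map_pow, map_add, map_one, haZ, hbZ, hgZ, e1]
      exact (id_r A P Q S).symm

end Crest.Agent.R268
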